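import Vale.Agent.P329.H559.Ctx
import Vale.Agent.P329.H550.SccFour
import Vale.Agent.P329.R2.H162.Str

/-!
# P329: automata all of whose letters have at most three values

If moreover each word which exchanges two states has three values, then the languages of the
automaton have height at most one: windows of two letters and the symmetric group of degree three.
-/

set_option linter.all false

namespace Vale.Agent.P329.H954

open Vale.Agent.P329 Vale.Agent.P329.H112 Vale.Agent.P329.H647 Vale.Agent.P329.H96
  Vale.Agent.P329.H550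

/-- maps without cycles are aperiodic -/
theorem aper_of {σ : Type} [Finite σ] (f : σ → σ)
    (h : ∀ (x : σ) (n : ℕ), 0 < n → f^[n] x = x → f x = x) :
    ∃ k, ∀ x, f^[k + 1] x = f^[k] x := by
  obtain ⟨i, j, hne, hij⟩ := Finite.exists_ne_map_eq_of_infinite (fun n : ℕ => f^[n])
  have key : ∀ i j : ℕ, i < j → f^[i] = f^[j] → ∃ k, ∀ x, f^[k + 1] x = f^[k] x := by
    intro i j hlt hij
    refine ⟨i, fun x => ?_⟩
    rw [Function.iterate_succ_apply']
    apply h _ (j - i) (by omega)
    rw [← Function.iterate_add_apply, Nat.sub_add_cancel hlt.le, ← hij]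
  rcases lt_or_gt_of_ne hne with hlt | hlt
  · exact key i j hlt hij
  · exact key j i hlt hij.symm

section

variable {α Y : Type} (D : Option Y → α → Option Y)

/-- values of a word different from the sink -/
def J (v : List α) : Set (Option Y) := {s | s ≠ none ∧ ∃ r, v.foldl D r = s}

/-- the sink -/
def Sink : Prop := ∀ a, D none a = none

/-- each letter has at most three values -/
def R3 : Prop := ∀ a, (J D [a]).ncard ≤ 3

/-- each word exchanging two states has three values -/
def X3 : Prop := ∀ (v : List α) (s t : Option Y), s ≠ t → s ≠ none → t ≠ none →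
  v.foldl D s = t → v.foldl D t = s → 3 ≤ (J D v).ncard

variable {D}

theorem Sink.foldl (hD : Sink D) (w : List α) : w.foldl D none = none := by
  induction w with
  | nil => rfl
  | cons a w ih => rw [List.foldl_cons, hD]; exact ih

theorem J_snoc (v : List α) (a : α) : J D (v ++ [a]) ⊆ J D [a] := by
  rintro s ⟨h1, r, hr⟩
  refine ⟨h1, v.foldl D r, ?_⟩
  rw [List.foldl_append] at hr
  exact hr

theorem J_le [Finite Y] (h3 : R3 D) (v : List α) (hv : v ≠ []) : (J D v).ncard ≤ 3 := by
  obtain ⟨u, a, rfl⟩ := List.eq_nil_or_concat' v |>.resolve_left hv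
  exact (Set.ncard_le_ncard (J_snoc u a) (Set.toFinite _)).trans (h3 a)

/-- nontrivial cycles need three values -/
theorem three_of_cyc [Finite Y] (h2 : X3 D) (v : List α) (x : Option Y) (hx : x ≠ none)
    (hD : Sink D) (n : ℕ) (hn : 0 < n) (hc : (fun s => v.foldl D s)^[n] x = x)
    (hne : v.foldl D x ≠ x) : 3 ≤ (J D v).ncard := by
  by_contra hlt
  have hnone : ∀ i, (fun s => v.foldl D s)^[i] none = none := by
    intro i
    induction i with
    | zero => rfl
    | succ i ih => rw [Function.iterate_succ_apply', ih]; exact hD.foldl v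
  obtain ⟨n, rfl⟩ : ∃ m, n = m + 1 := ⟨n - 1, by omega⟩
  have h0 : v.foldl D x ≠ none := by
    intro h
    rw [Function.iterate_succ_apply, h, hnone] at hc
    exact hx hc.symm
  have h1 : x ∈ J D v := ⟨hx, _, by
    rw [Function.iterate_succ_apply'] at hc; exact hc⟩
  have h3 : v.foldl D x ∈ J D v := ⟨h0, x, rfl⟩
  have h4 : J D v ⊆ {x, v.foldl D x} := by
    have h5 : ({x, v.foldl D x} : Set (Option Y)) ⊆ J D v := by
      intro s hs
      rcases hs with rfl | hs
      · exact h1
      · rw [Set.mem_singleton_iff.mp hs]; exact h3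
    have h6 : (J D v).ncard ≤ ({x, v.foldl D x} : Set (Option Y)).ncard := by
      rw [Set.ncard_pair hne.symm]; omega
    exact (Set.eq_of_subset_of_ncard_le h5 h6 (Set.toFinite _)).ge
  have h7 : v.foldl D (v.foldl D x) = x := by
    by_cases h8 : v.foldl D (v.foldl D x) = v.foldl D x
    · exfalso
      have h9 : ∀ i, (fun s => v.foldl D s)^[i + 1] x = v.foldl D x := by
        intro i
        induction i with
        | zero => rfl
        | succ i ih => rw [Function.iterate_succ_apply', ih]; exact h8
      rw [h9] at hc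
      exact hne hc
    · have h9 : v.foldl D (v.foldl D x) ≠ none := by
        intro h10
        cases n with
        | zero => exact hne hc
        | succ n =>
          rw [Function.iterate_succ_apply, Function.iterate_succ_apply, h10, hnone] at hc
          exact hx hc.symm
      rcases h4 ⟨h9, _, rfl⟩ with h10 | h10
      · exact h10
      · exact absurd (Set.mem_singleton_iff.mp h10) h8
  have h8 := h2 v x (v.foldl D x) hne.symm hx h0 rfl h7
  omega

/-- in the presence of a cycle the word permutes the values of its last letter -/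
theorem perm_of_cyc [Finite Y] (hD : Sink D) (h3 : R3 D) (h2 : X3 D) (v : List α) (hv : v ≠ [])
    (x : Option Y) (hx : x ≠ none) (n : ℕ) (hn : 0 < n)
    (hc : (fun s => v.foldl D s)^[n] x = x) (hne : v.foldl D x ≠ x) :
    3 ≤ (J D v).ncard ∧ (∀ s ∈ J D v, v.foldl D s ≠ none) ∧
      Set.InjOn (fun s => v.foldl D s) (J D v) := by
  have hnone : ∀ i, (fun s => v.foldl D s)^[i] none = none := by
    intro i
    induction i with
    | zero => rfl
    | succ i ih => rw [Function.iterate_succ_apply', ih]; exact hD.foldl v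
  have hpw : ∀ (i : ℕ) (s : Option Y), (pw i v).foldl D s = (fun s => v.foldl D s)^[i] s := by
    intro i
    induction i with
    | zero => intro s; rfl
    | succ i ih =>
      intro s
      rw [pw_succ, List.foldl_append, ih, Function.iterate_succ_apply]
  have h4 := three_of_cyc h2 v x hx hD n hn hc hne
  have hmul : ∀ i, (fun s => v.foldl D s)^[n * i] x = x := by
    intro i
    induction i with
    | zero => rfl
    | succ i ih => rw [Nat.mul_succ, Function.iterate_add_apply, hc, ih]
  have h5 : 3 ≤ (J D (pw (n + 1) v)).ncard := by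
    refine three_of_cyc h2 _ x hx hD n hn ?_ ?_
    · have e : (fun s => (pw (n + 1) v).foldl D s) = (fun s => v.foldl D s)^[n + 1] :=
        funext fun s => hpw _ s
      rw [e, ← Function.iterate_mul, Nat.mul_comm]
      exact hmul (n + 1)
    · rw [hpw, Function.iterate_succ_apply', hc]
      exact hne
  have h6 : J D (pw (n + 1) v) ⊆ ((fun s => v.foldl D s)^[n]) '' (J D v) := by
    rintro s ⟨hs, r, hr⟩
    rw [hpw, Function.iterate_succ_apply] at hr
    refine ⟨v.foldl D r, ⟨?_, r, rfl⟩, hr⟩
    intro h7
    change (fun s => v.foldl D s)^[n] (v.foldl D r) = s at hr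
    rw [h7, hnone] at hr
    exact hs hr.symm
  have h7 : (J D v).ncard ≤ 3 := J_le h3 v hv
  have h8 : (((fun s => v.foldl D s)^[n]) '' (J D v)).ncard = (J D v).ncard := by
    apply le_antisymm (Set.ncard_image_le (Set.toFinite _))
    have := Set.ncard_le_ncard h6 (Set.toFinite _)
    omega
  have h9 := Set.injOn_of_ncard_image_eq h8 (Set.toFinite _)
  have hinj : Set.InjOn (fun s => v.foldl D s) (J D v) := by
    obtain ⟨m, rfl⟩ : ∃ m, n = m + 1 := ⟨n - 1, by omega⟩
    intro s hs t ht hst
    apply h9 hs ht
    rw [Function.iterate_succ_apply, Function.iterate_succ_apply]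
    exact congrArg _ hst
  have h10 : J D (pw (n + 1) v) = ((fun s => v.foldl D s)^[n]) '' (J D v) :=
    Set.eq_of_subset_of_ncard_le h6 (by omega) (Set.toFinite _)
  refine ⟨h4, ?_, hinj⟩
  intro s hs h11
  have h12 : (fun s => v.foldl D s)^[n] s ∈ J D (pw (n + 1) v) := by
    rw [h10]; exact ⟨s, hs, rfl⟩
  obtain ⟨m, rfl⟩ : ∃ m, n = m + 1 := ⟨n - 1, by omega⟩
  rw [Function.iterate_succ_apply, h11, hnone] at h12
  exact h12.1 rfl

/-- frames -/
theorem exists_frame (a : α) : ∃ e : Fin 3 → Option Y, (J D [a]).ncard = 3 →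
    Function.Injective e ∧ Set.range e = J D [a] := by
  by_cases h : (J D [a]).ncard = 3
  · obtain ⟨x, y, z, hxy, hxz, hyz, hJ⟩ := Set.ncard_eq_three.mp h
    refine ⟨![x, y, z], fun _ => ⟨?_, ?_⟩⟩
    · intro i j hij
      fin_cases i <;> fin_cases j <;> simp_all
    · rw [hJ]
      ext s
      constructor
      · rintro ⟨i, rfl⟩
        fin_cases i <;> simp
      · rintro (rfl | rfl | rfl)
        · exact ⟨0, rfl⟩
        · exact ⟨1, rfl⟩
        · exact ⟨2, rfl⟩
  · exact ⟨fun _ => none, fun h' => absurd h' h⟩

open Classical in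
/-- the window value -/
noncomputable def win (D : Option Y → α → Option Y) (e : α → Fin 3 → Option Y) (a b : α) :
    Equiv.Perm (Fin 3) :=
  if h : ∃ π : Equiv.Perm (Fin 3), ∀ j, D (e a (π j)) b = e b j then h.choose else 1

theorem win_spec (e : α → Fin 3 → Option Y) (a b : α)
    (h : ∃ π : Equiv.Perm (Fin 3), ∀ j, D (e a (π j)) b = e b j) (j : Fin 3) :
    D (e a (win D e a b j)) b = e b j := by
  have h1 : win D e a b = h.choose := dif_pos h
  rw [h1]
  exact h.choose_spec j

/-- window weights -/
noncomputable def ww (D : Option Y → α → Option Y) (e : α → Fin 3 → Option Y) :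
    ZMod 1 → List α → α → Equiv.Perm (Fin 3) :=
  fun _ Z b => match Z with
    | [] => 1
    | a :: _ => win D e a b

theorem key_run [Finite Y] (hD : Sink D) (h3 : R3 D) (e : α → Fin 3 → Option Y)
    (he : ∀ a, (J D [a]).ncard = 3 → Function.Injective (e a) ∧ Set.range (e a) = J D [a])
    (a : α) (ha : (J D [a]).ncard = 3) (u : List α)
    (h4 : ∀ s ∈ J D [a], u.foldl D s ≠ none) (h5 : Set.InjOn (fun s => u.foldl D s) (J D [a])) :
    ∃ b, (a :: u).getLast? = some b ∧
      (u.foldl (H434.cstepN (ww D e))
        ((0, ⟨[a], le_rfl⟩, 1) : H434.CSN α (Equiv.Perm (Fin 3)) 1 1)).2.1.1 = [b] ∧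
      (J D [b]).ncard = 3 ∧
      ∀ j, u.foldl D (e a ((u.foldl (H434.cstepN (ww D e))
        ((0, ⟨[a], le_rfl⟩, 1) : H434.CSN α (Equiv.Perm (Fin 3)) 1 1)).2.2 j)) = e b j := by
  induction u using List.reverseRecOn with
  | nil => exact ⟨a, rfl, rfl, ha, fun j => rfl⟩
  | append_singleton u b ih =>
    obtain ⟨b', h6, h7, h8, h9⟩ := ih (fun s hs h => h4 s hs (by
        rw [List.foldl_append, h]; exact hD.foldl _)) (fun s hs t ht hst => h5 hs ht (by
        change (u ++ [b]).foldl D s = (u ++ [b]).foldl D t
        rw [List.foldl_append, List.foldl_append]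
        exact congrArg (fun s => List.foldl D s [b]) hst))
    set S := u.foldl (H434.cstepN (ww D e))
      ((0, ⟨[a], le_rfl⟩, 1) : H434.CSN α (Equiv.Perm (Fin 3)) 1 1) with hS
    -- the three values are moved to three values of `b`
    have hm : ∀ j, e a (S.2.2 j) ∈ J D [a] := by
      intro j
      rw [← (he a ha).2]
      exact ⟨_, rfl⟩
    have g1 : ∀ j, D (e b' j) b ∈ J D [b] := by
      intro j
      refine ⟨?_, e b' j, rfl⟩
      have := h4 _ (hm j)
      rw [List.foldl_append, h9] at this
      exact this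
    have g2 : Function.Injective fun j => D (e b' j) b := by
      intro i j hij
      have h10 := h5 (hm i) (hm j) (by
        change (u ++ [b]).foldl D _ = (u ++ [b]).foldl D _
        rw [List.foldl_append, List.foldl_append, h9, h9]
        exact hij)
      exact S.2.2.injective ((he a ha).1 h10)
    have g3 : Set.range (fun j => D (e b' j) b) ⊆ J D [b] := by
      rintro _ ⟨j, rfl⟩; exact g1 j
    have g4 : (Set.range (fun j => D (e b' j) b)).ncard = 3 := by
      rw [← Set.image_univ, Set.ncard_image_of_injective _ g2, Set.ncard_univ, Nat.card_fin]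
    have g5 : (J D [b]).ncard = 3 := by
      apply le_antisymm (h3 b)
      rw [← g4]
      exact Set.ncard_le_ncard g3 (Set.toFinite _)
    have g6 : Set.range (fun j => D (e b' j) b) = J D [b] :=
      Set.eq_of_subset_of_ncard_le g3 (by omega) (Set.toFinite _)
    have g7 : ∀ j, ∃ i, D (e b' i) b = e b j := by
      intro j
      have h10 : e b j ∈ J D [b] := by rw [← (he b g5).2]; exact ⟨j, rfl⟩
      rw [← g6] at h10
      exact h10
    choose ρ hρ using g7
    have hρi : Function.Injective ρ := by
      intro i j hij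
      apply (he b g5).1
      rw [← hρ i, ← hρ j, hij]
    have g8 : ∃ π : Equiv.Perm (Fin 3), ∀ j, D (e b' (π j)) b = e b j :=
      ⟨Equiv.ofBijective ρ ((Finite.injective_iff_bijective).mp hρi), fun j => hρ j⟩
    refine ⟨b, ?_, ?_, g5, ?_⟩
    · rw [← List.cons_append, List.getLast?_append]; rfl
    · rw [List.foldl_append, List.foldl_cons, List.foldl_nil]
      rfl
    · intro j
      rw [List.foldl_append, List.foldl_append, List.foldl_cons, List.foldl_nil, List.foldl_cons,
        List.foldl_nil]
      change D (u.foldl D (e a ((S.2.2 * ww D e S.1 S.2.1.1.reverse b) j))) b = e b j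
      rw [h7]
      change D (u.foldl D (e a (S.2.2 (win D e b' b j)))) b = e b j
      rw [h9]
      exact win_spec e b' b g8 j

/-- **Automata whose letters have at most three values.** -/
theorem three_sh [Finite α] [Finite Y] (hD : Sink D) (h3 : R3 D) (h2 : X3 D)
    (p q : Option Y) : SH 1 {w : List α | w.foldl D p = q} := by
  classical
  choose e he using fun a => exists_frame (D := D) a
  have hfin : Finite {Z : List α // Z.length ≤ 1} := (List.finite_length_le α 1).to_subtype
  have hG : H434.CtxK 1 (Equiv.Perm (Fin 3)) := by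
    have := H559.ctxK_fin3 0
    rwa [pow_zero] at this
  have h4 : MapLe 1 (H550.tr (H434.cstepN (c := 1) (ww D e))) :=
    mapLe_tr _ (H434.cstepN_sh H434.LocK.one hG (ww D e))
  refine H550.sh_of_mapLe D (H162.Str.straubing _ h4 (H550.tr D) fun v hv hid => ?_) p q
  have hid' : ∀ s : H434.CSN α (Equiv.Perm (Fin 3)) 1 1,
      v.foldl (H434.cstepN (ww D e)) (v.foldl (H434.cstepN (ww D e)) s) =
        v.foldl (H434.cstepN (ww D e)) s := by
    intro s
    have := congrArg (fun m : Tr _ => m.f s) hid
    simp only [Tr.mul_f, H550.tr_prod] at this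
    exact this
  obtain ⟨k, hk⟩ := aper_of (fun s => v.foldl D s) (by
    intro x n hn hc
    by_contra hne
    have hx : x ≠ none := by
      rintro rfl
      exact hne (hD.foldl v)
    obtain ⟨h5, h6, h7⟩ := perm_of_cyc hD h3 h2 v hv x hx n hn hc hne
    obtain ⟨v', a, hva⟩ := List.eq_nil_or_concat' v |>.resolve_left hv
    have h8 : J D v ⊆ J D [a] := by rw [hva]; exact J_snoc v' a
    have h9 : J D v = J D [a] :=
      Set.eq_of_subset_of_ncard_le h8 ((h3 a).trans h5) (Set.toFinite _)
    have ha : (J D [a]).ncard = 3 := le_antisymm (h3 a) (by rw [← h9]; exact h5)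
    rw [h9] at h6 h7
    obtain ⟨b, g1, g2, g3, g4⟩ := key_run hD h3 e he a ha v h6 h7
    have hba : b = a := by
      have : (a :: v).getLast? = some a := by
        rw [hva, ← List.cons_append, List.getLast?_append]; rfl
      rw [this] at g1
      exact (Option.some.inj g1).symm
    -- the value of `v` after `a` is trivial
    have hP : (v.foldl (H434.cstepN (ww D e))
        ((0, ⟨[a], le_rfl⟩, 1) : H434.CSN α (Equiv.Perm (Fin 3)) 1 1)).2.2 = 1 := by
      have r1 := hid' ((0, ⟨[a], le_rfl⟩, 1) : H434.CSN α (Equiv.Perm (Fin 3)) 1 1)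
      have r2 := (H434.cstepN_run (c := 1) (ww D e)
        ((0, ⟨[a], le_rfl⟩, 1) : H434.CSN α (Equiv.Perm (Fin 3)) 1 1) v).2.2
      set T := v.foldl (H434.cstepN (ww D e))
        ((0, ⟨[a], le_rfl⟩, 1) : H434.CSN α (Equiv.Perm (Fin 3)) 1 1) with hT
      have r3 := (H434.cstepN_run (c := 1) (ww D e) T v).2.2
      rw [r1] at r3
      have r4 : T.2.1.1 = [a] := by rw [g2, hba]
      have r5 : T.1 = 0 := Subsingleton.elim _ _
      rw [r4, r5] at r3
      change T.2.2 = T.2.2 * H157.hp (fun X b => ww D e (0 + (X.length : ZMod 1))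
        ((X ++ [a]).take 1).reverse b) v.reverse at r3
      change T.2.2 = 1 * H157.hp (fun X b => ww D e (0 + (X.length : ZMod 1))
        ((X ++ [a]).take 1).reverse b) v.reverse at r2
      rw [one_mul] at r2
      rw [← r2] at r3
      exact (mul_eq_left.mp r3.symm)
    rw [hP, hba] at g4
    have hxJ : x ∈ J D [a] := by
      rw [← h9]
      obtain ⟨m, rfl⟩ : ∃ m, n = m + 1 := ⟨n - 1, by omega⟩
      refine ⟨hx, (fun s => v.foldl D s)^[m] x, ?_⟩
      rw [Function.iterate_succ_apply'] at hc
      exact hc
    rw [← (he a ha).2] at hxJ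
    obtain ⟨j, rfl⟩ := hxJ
    exact hne (g4 j))
  refine ⟨k, ?_⟩
  apply Tr.ext'
  intro s
  have hf : ((v.map (H550.tr D)).prod).f = fun s => v.foldl D s :=
    funext fun s => H550.tr_prod D v s
  rw [Tr.pow_f, Tr.pow_f, hf]
  exact hk s

end

end Vale.Agent.P329.H954
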