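import Vale.Agent.P329.H954.Aut

/-!
# P329: components with at most three values, and identity letters
-/

set_option linter.all false

namespace Vale.Agent.P329.H954

open Vale.Agent.P329 Vale.Agent.P329.H112 Vale.Agent.P329.H647 Vale.Agent.P329.H96
  Vale.Agent.P329.H550

open Classical in
/-- letters may be erased -/
theorem erase_sh {α : Type} [Finite α] (I : α → Prop) {h : ℕ} {L : Set (List α)} (hL : SH h L) :
    SH h {w : List α | w.filter (fun a => decide (¬ I a)) ∈ L} := by
  have hall : ∀ w : List α, w.filter (fun a => decide (¬ I a)) = [] ↔ ∀ x ∈ w, I x := by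
    intro w
    rw [List.filter_eq_nil_iff]
    simp
  obtain ⟨e, he, rfl⟩ := hL
  induction e generalizing h with
  | zero => exact SH.empty
  | one =>
    refine Eq.mp (congrArg (SH h) ?_) (SH.all I)
    ext w
    exact (hall w).symm
  | letter b =>
    by_cases hb : I b
    · refine Eq.mp (congrArg (SH h) ?_) SH.empty
      ext w
      constructor
      · intro h1; exact h1.elim
      · intro h1
        have h2 : b ∈ w.filter (fun a => decide (¬ I a)) := by
          have h3 : w.filter (fun a => decide (¬ I a)) = [b] := h1
          rw [h3]; exact List.mem_singleton_self b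
        rw [List.mem_filter] at h2
        have h4 := h2.2
        simp only [decide_eq_true_eq] at h4
        exact absurd hb h4
    · refine Eq.mp (congrArg (SH h) ?_) ((SH.all I).cat ((SH.single b).cat (SH.all I)))
      ext w
      constructor
      · rintro ⟨u, hu, t, ⟨s, hs, v, hv, rfl⟩, rfl⟩
        rw [Set.mem_singleton_iff] at hs
        subst hs
        change (u ++ ([b] ++ v)).filter _ = [b]
        rw [List.filter_append, List.filter_append, (hall u).2 hu, (hall v).2 hv]
        simp [hb]
      · intro h1
        have h3 : w.filter (fun a => decide (¬ I a)) = [] ++ ([b] ++ []) := h1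
        obtain ⟨u, t, rfl, hu, ht⟩ := List.filter_eq_append_iff.1 h3
        obtain ⟨s, v, rfl, hs, hv⟩ := List.filter_eq_append_iff.1 ht
        rw [List.append_nil] at *
        rw [List.filter_eq_cons_iff] at hs
        obtain ⟨l1, l2, rfl, h4, h5, h6⟩ := hs
        refine ⟨u ++ l1, ?_, [b] ++ (l2 ++ v), ⟨[b], rfl, l2 ++ v, ?_, rfl⟩, by simp⟩
        · intro x hx
          rcases List.mem_append.1 hx with h7 | h7
          · exact (hall u).1 hu x h7
          · have := h4 x h7
            simpa using this
        · intro x hx
          rcases List.mem_append.1 hx with h7 | h7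
          · exact (hall l2).1 h6 x h7
          · exact (hall v).1 hv x h7
  | union e f ihe ihf =>
    exact (ihe ((le_max_left _ _).trans he)).union (ihf ((le_max_right _ _).trans he))
  | concat e f ihe ihf =>
    refine Eq.mp (congrArg (SH h) ?_)
      ((ihe ((le_max_left _ _).trans he)).cat (ihf ((le_max_right _ _).trans he)))
    ext w
    constructor
    · rintro ⟨u, hu, v, hv, rfl⟩
      exact ⟨_, hu, _, hv, (List.filter_append ..).symm⟩
    · rintro ⟨u, hu, v, hv, huv⟩
      obtain ⟨w1, w2, rfl, h1, h2⟩ := List.filter_eq_append_iff.1 huv.symm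
      refine ⟨w1, ?_, w2, ?_, rfl⟩
      · change w1.filter _ ∈ e.lang
        rw [h1]; exact hu
      · change w2.filter _ ∈ f.lang
        rw [h2]; exact hv
  | compl e ih => exact (ih he).compl
  | star e ih =>
    obtain ⟨h, rfl⟩ : ∃ m, h = m + 1 := by
      cases h with
      | zero => exact absurd he (by simp [GRE.height])
      | succ h => exact ⟨h, rfl⟩
    have he' : e.height ≤ h := by
      have : e.height + 1 ≤ h + 1 := he
      omega
    refine Eq.mp (congrArg (SH (h + 1)) ?_) ((ih he').kst.union (SH.all I))
    ext w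
    constructor
    · rintro (⟨L, hL, rfl⟩ | hw)
      · refine ⟨L.map fun u => u.filter (fun a => decide (¬ I a)), ?_, ?_⟩
        · intro u hu
          obtain ⟨u', hu', rfl⟩ := List.mem_map.1 hu
          exact hL u' hu'
        · rw [List.filter_flatten]
      · refine ⟨[], fun u hu => absurd hu (List.not_mem_nil), ?_⟩
        exact ((hall w).2 hw).symm
    · rintro ⟨L, hL, hw⟩
      change L.flatten = w.filter _ at hw
      induction L generalizing w with
      | nil => exact Or.inr ((hall w).1 hw.symm)
      | cons u L ihL =>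
        rw [List.flatten_cons] at hw
        obtain ⟨w1, w2, rfl, h1, h2⟩ := List.filter_eq_append_iff.1 hw.symm
        have hu : w1 ∈ {w : List α | w.filter (fun a => decide (¬ I a)) ∈ e.lang} := by
          change w1.filter _ ∈ e.lang
          rw [h1]; exact hL u List.mem_cons_self
        rcases ihL w2 (fun v hv => hL v (List.mem_cons_of_mem _ hv)) h2.symm with h3 | h3
        · obtain ⟨L', hL', hw'⟩ := h3
          refine Or.inl ⟨w1 :: L', ?_, by rw [List.flatten_cons, hw']⟩
          intro v hv
          rcases List.mem_cons.1 hv with rfl | hv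
          · exact hu
          · exact hL' v hv
        · refine Or.inl ⟨[w1 ++ w2], ?_, by simp⟩
          intro v hv
          rw [List.mem_singleton] at hv
          subst hv
          change (w1 ++ w2).filter _ ∈ e.lang
          rw [List.filter_append, (hall w2).2 h3, List.append_nil]
          exact hu

section kill

variable {α σ : Type} {D D' : σ → α → σ} {o : σ}

theorem kill_run (hs : ∀ a, D o a = o) (hk : ∀ s a, D s a = D' s a ∨ D s a = o) (w : List α) :
    ∀ p : σ, w.foldl D p ≠ o → w.foldl D p = w.foldl D' p ∧
      ¬ ∃ u a v, w = u ++ a :: v ∧ D (u.foldl D' p) a ≠ D' (u.foldl D' p) a := by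
  have ho : ∀ w : List α, w.foldl D o = o := by
    intro w
    induction w with
    | nil => rfl
    | cons a w ih => rw [List.foldl_cons, hs]; exact ih
  induction w with
  | nil =>
    intro p _
    refine ⟨rfl, ?_⟩
    rintro ⟨u, a, v, h, -⟩
    exact absurd h (by simp)
  | cons b w ih =>
    intro p hp
    rw [List.foldl_cons] at hp
    have h1 : D p b = D' p b := by
      rcases hk p b with h | h
      · exact h
      · rw [h, ho] at hp
        exact absurd rfl hp
    obtain ⟨h2, h3⟩ := ih _ hp
    rw [h1] at h2 h3
    refine ⟨by rw [List.foldl_cons, List.foldl_cons, h1, h2], ?_⟩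
    rintro ⟨u, a, v, h4, h5⟩
    cases u with
    | nil =>
      rw [List.nil_append, List.cons.injEq] at h4
      rw [← h4.1] at h5
      exact h5 h1
    | cons c u =>
      rw [List.cons_append, List.cons.injEq] at h4
      rw [← h4.1, List.foldl_cons] at h5
      exact h3 ⟨u, a, v, h4.2, h5⟩

theorem kill_run' (w : List α) : ∀ p : σ,
    (¬ ∃ u a v, w = u ++ a :: v ∧ D (u.foldl D' p) a ≠ D' (u.foldl D' p) a) →
      w.foldl D p = w.foldl D' p := by
  induction w with
  | nil => intro p _; rfl
  | cons b w ih =>
    intro p h
    have h1 : D p b = D' p b := by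
      by_contra h1
      exact h ⟨[], b, w, rfl, h1⟩
    rw [List.foldl_cons, List.foldl_cons, h1]
    apply ih
    rintro ⟨u, a, v, h2, h3⟩
    refine h ⟨b :: u, a, v, by rw [h2]; rfl, ?_⟩
    rw [List.foldl_cons]
    exact h3

/-- transitions may be redirected to a sink -/
theorem kill_sh [Finite α] [Finite σ] {k : ℕ} (hs : ∀ a, D o a = o)
    (hk : ∀ s a, D s a = D' s a ∨ D s a = o)
    (h : ∀ p q, SH k {w : List α | w.foldl D' p = q}) (p q : σ) :
    SH k {w : List α | w.foldl D p = q} := by
  classical
  have h1 : ∀ q, q ≠ o → SH k {w : List α | w.foldl D p = q} := by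
    intro q hq
    have h2 : SH k (⋃ s : σ, ⋃ a : α, ⋃ _ : D s a ≠ D' s a,
        cat {u : List α | u.foldl D' p = s} (cat {[a]} Set.univ)) :=
      SH.iUnion fun s => SH.iUnion fun a => SH.iUnion_prop fun _ =>
        (h p s).cat ((SH.single a).cat SH.univ)
    refine Eq.mp (congrArg (SH k) ?_) ((h p q).inter h2.compl)
    have h3 : ∀ w : List α, w ∈ (⋃ s : σ, ⋃ a : α, ⋃ _ : D s a ≠ D' s a,
        cat {u : List α | u.foldl D' p = s} (cat {[a]} Set.univ)) ↔
        ∃ u a v, w = u ++ a :: v ∧ D (u.foldl D' p) a ≠ D' (u.foldl D' p) a := by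
      intro w
      simp only [Set.mem_iUnion, exists_prop]
      constructor
      · rintro ⟨s, a, h4, u, hu, t, ⟨l, hl, v, -, rfl⟩, rfl⟩
        rw [Set.mem_singleton_iff] at hl
        subst hl
        refine ⟨u, a, v, rfl, ?_⟩
        rw [show u.foldl D' p = s from hu]
        exact h4
      · rintro ⟨u, a, v, rfl, h4⟩
        exact ⟨_, a, h4, u, rfl, a :: v, ⟨[a], rfl, v, trivial, rfl⟩, rfl⟩
    ext w
    constructor
    · rintro ⟨h4, h5⟩
      rw [Set.mem_compl_iff, h3] at h5
      change w.foldl D p = q
      rw [kill_run' w p h5]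
      exact h4
    · intro h4
      change w.foldl D p = q at h4
      obtain ⟨h5, h6⟩ := kill_run hs hk w p (by rw [h4]; exact hq)
      refine ⟨?_, ?_⟩
      · change w.foldl D' p = q
        rw [← h5, h4]
      · rw [Set.mem_compl_iff, h3]
        exact h6
  by_cases hq : q = o
  · have h2 : SH k (⋃ r : σ, ⋃ _ : r ≠ o, {w : List α | w.foldl D p = r}) :=
      SH.iUnion fun r => SH.iUnion_prop fun hr => h1 r hr
    refine Eq.mp (congrArg (SH k) ?_) h2.compl
    ext w
    rw [Set.mem_compl_iff]
    simp only [Set.mem_iUnion, exists_prop, Set.mem_setOf_eq]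
    rw [hq]
    constructor
    · intro h3
      by_contra h4
      exact h3 ⟨_, h4, rfl⟩
    · rintro h3 ⟨r, hr, h4⟩
      exact hr (h4.symm.trans h3)
  · exact h1 q hq

end kill

section ident

variable {α Y : Type} {D : Option Y → α → Option Y}

open Classical in
/-- the letters in `I` lead to the sink -/
noncomputable def cutI (D : Option Y → α → Option Y) (I : α → Prop) : Option Y → α → Option Y :=
  fun x a => if I a then none else D x a

theorem cutI_sink (hD : Sink D) (I : α → Prop) : Sink (cutI D I) := by
  classical
  intro a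
  change (if I a then none else D none a) = none
  split_ifs
  · rfl
  · exact hD a

theorem cutI_run (I : α → Prop) (v : List α) (hv : ∀ a ∈ v, ¬ I a) (s : Option Y) :
    v.foldl (cutI D I) s = v.foldl D s := by
  classical
  induction v generalizing s with
  | nil => rfl
  | cons a v ih =>
    have h4 : cutI D I s a = D s a := if_neg (hv a List.mem_cons_self)
    rw [List.foldl_cons, List.foldl_cons, h4]
    exact ih (fun b hb => hv b (List.mem_cons_of_mem _ hb)) _

theorem cutI_mem (hD : Sink D) (I : α → Prop) (v : List α) (s : Option Y)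
    (hs : v.foldl (cutI D I) s ≠ none) : ∀ a ∈ v, ¬ I a := by
  classical
  induction v generalizing s with
  | nil => intro a ha; exact absurd ha List.not_mem_nil
  | cons b v ih =>
    intro a ha
    rw [List.foldl_cons] at hs
    rcases List.mem_cons.1 ha with rfl | ha
    · intro hIa
      have h4 : cutI D I s a = none := if_pos hIa
      rw [h4, (cutI_sink hD I).foldl] at hs
      exact hs rfl
    · exact ih _ hs a ha

theorem cutI_J (I : α → Prop) (v : List α) (hv : ∀ a ∈ v, ¬ I a) : J (cutI D I) v = J D v := by
  ext s
  unfold J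
  simp only [Set.mem_setOf_eq, cutI_run I v hv]

theorem cutI_J' (I : α → Prop) (a : α) (ha : I a) : J (cutI D I) [a] = ∅ := by
  classical
  ext s
  constructor
  · rintro ⟨h6, r, rfl⟩
    have h7 : [a].foldl (cutI D I) r = none := if_pos ha
    exact absurd h7 h6
  · intro h6; exact h6.elim

/-- **Letters which are the identity where they stay are harmless.** -/
theorem id_sh [Finite α] [Finite Y] (hD : Sink D) (I : α → Prop)
    (hI : ∀ a, I a → ∀ x, D x a = x ∨ D x a = none)
    (h4 : ∀ p q, SH 1 {w : List α | w.foldl (cutI D I) p = q})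
    (p q : Option Y) : SH 1 {w : List α | w.foldl D p = q} := by
  classical
  let D' : Option Y → α → Option Y := fun x a => if I a then x else D x a
  have h5 : ∀ p q, SH 1 {w : List α | w.foldl D' p = q} := by
    intro p q
    refine Eq.mp (congrArg (SH 1) ?_) (erase_sh I (h4 p q))
    ext w
    change (w.filter fun a => decide (¬ I a)).foldl (cutI D I) p = q ↔ w.foldl D' p = q
    have h6 : ∀ (w : List α) (p : Option Y),
        (w.filter fun a => decide (¬ I a)).foldl (cutI D I) p = w.foldl D' p := by
      intro w
      induction w with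
      | nil => intro p; rfl
      | cons a w ih =>
        intro p
        by_cases ha : I a
        · rw [List.filter_cons_of_neg (by simpa using ha), ih, List.foldl_cons]
          congr 1
          exact (if_pos ha).symm
        · rw [List.filter_cons_of_pos (by simpa using ha), List.foldl_cons, ih, List.foldl_cons]
          congr 1
          have e1 : cutI D I p a = D p a := if_neg ha
          have e2 : D' p a = D p a := if_neg ha
          rw [e1, e2]
    rw [h6]
  refine kill_sh (D' := D') (o := none) hD (fun s a => ?_) h5 p q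
  by_cases ha : I a
  · have e2 : D' s a = s := if_pos ha
    rw [e2]
    exact hI a ha s
  · exact Or.inl (if_neg ha).symm

end ident

section comp

variable {α X : Type} (δ : X → α → X)

variable {δ}

theorem dC_run (p : X) (w : List α) : ∀ (y z : Cmp δ p), w.foldl (dC δ (Cmp δ p)) (some y) =
    some z ↔ w.foldl δ (y : X) = z := by
  classical
  have hnone : ∀ w : List α, w.foldl (dC δ (Cmp δ p)) none = none := by
    intro w
    induction w with
    | nil => rfl
    | cons a w ih => rw [List.foldl_cons]; exact ih
  induction w with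
  | nil =>
    intro y z
    rw [List.foldl_nil, List.foldl_nil, Option.some.injEq]
    exact ⟨fun h => by rw [h], fun h => Subtype.ext h⟩
  | cons a w ih =>
    intro y z
    rw [List.foldl_cons, List.foldl_cons]
    change w.foldl (dC δ (Cmp δ p))
      (if h : δ y a ∈ Cmp δ p then some ⟨δ y a, h⟩ else none) = some z ↔ _
    by_cases h : δ y a ∈ Cmp δ p
    · rw [dif_pos h]
      exact ih ⟨δ y a, h⟩ z
    · rw [dif_neg h, hnone]
      constructor
      · intro h2; exact absurd h2 (by simp)
      · intro h2
        exfalso
        refine h ⟨y.2.1.trans (Rch.step _ _), ?_⟩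
        exact Rch.trans (δ := δ) ⟨w, h2⟩ z.2.2

theorem J_eq (p : X) (v : List α) : J (dC δ (Cmp δ p)) v =
    (fun z : Cmp δ p => some z) '' {z | ∃ x ∈ Cmp δ p, v.foldl δ x = (z : X)} := by
  have hnone : ∀ w : List α, w.foldl (dC δ (Cmp δ p)) none = none := by
    intro w
    induction w with
    | nil => rfl
    | cons a w ih => rw [List.foldl_cons]; exact ih
  ext s
  constructor
  · rintro ⟨h1, r, hr⟩
    cases s with
    | none => exact absurd rfl h1
    | some z =>
      cases r with
      | none => rw [hnone] at hr; cases hr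
      | some y => exact ⟨z, ⟨y, y.2, (dC_run p v y z).1 hr⟩, rfl⟩
  · rintro ⟨z, ⟨x, hx, h1⟩, rfl⟩
    exact ⟨by simp, some ⟨x, hx⟩, (dC_run p v ⟨x, hx⟩ z).2 h1⟩

theorem J_card (p : X) (v : List α) : (J (dC δ (Cmp δ p)) v).ncard =
    {z | z ∈ Cmp δ p ∧ ∃ x ∈ Cmp δ p, v.foldl δ x = z}.ncard := by
  rw [J_eq, Set.ncard_image_of_injective _ (Option.some_injective _)]
  have h1 : {z | z ∈ Cmp δ p ∧ ∃ x ∈ Cmp δ p, v.foldl δ x = z} =
      (fun z : Cmp δ p => (z : X)) '' {z | ∃ x ∈ Cmp δ p, v.foldl δ x = (z : X)} := by
    ext z
    constructor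
    · rintro ⟨hz, h2⟩
      exact ⟨⟨z, hz⟩, h2, rfl⟩
    · rintro ⟨z, h2, rfl⟩
      exact ⟨z.2, h2⟩
  rw [h1, Set.ncard_image_of_injective _ Subtype.val_injective]

end comp

end Vale.Agent.P329.H954
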