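import Vale.Agent.P329.Bdl.B1
import Vale.Agent.P329.Bdl.K_Bdl_K_Known
import Vale.Agent.P329.Bdl.B2

/-!
# P329: twisted counts modulo three, visible length parity

The event automaton has states `(U, H, i)`: a coordinate `U` modulo three, the last letters `H`
since the last event and a phase `i` modulo `N = 2 ^ (r + 1)`. A letter multiplies `U` by a sign.
At the end of a block (`i + 1 = 0`) there is an event if the result is `δ`, and otherwise `δ` is
subtracted; here `δ = ± 1` is an arbitrary function of the last letters. This automaton has no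
cycles.
-/

set_option linter.all false

namespace Vale.Agent.P329.H954

open Vale.Agent.P329

variable {α : Type} {N : ℕ}

/-- states -/
abbrev Sta (α : Type) (N : ℕ) : Type := {p : ZMod 3 × List α × ZMod N // p.2.1.length ≤ N}

/-- coordinate -/
def Sta.u (p : Sta α N) : ZMod 3 := p.1.1
/-- last letters -/
def Sta.h (p : Sta α N) : List α := p.1.2.1
/-- phase -/
def Sta.i (p : Sta α N) : ZMod N := p.1.2.2

theorem Sta.ext {p q : Sta α N} (h1 : p.u = q.u) (h2 : p.h = q.h) (h3 : p.i = q.i) : p = q :=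
  Subtype.ext (Prod.ext h1 (Prod.ext h2 h3))

theorem Sta.h_le (p : Sta α N) : p.h.length ≤ N := p.2

/-- new state -/
def mk (N : ℕ) (u : ZMod 3) (H : List α) (i : ZMod N) : Sta α N :=
  ⟨(u, H.take N, i), by
    change (H.take N).length ≤ N
    rw [List.length_take]; exact Nat.min_le_left _ _⟩

theorem mk_u (u : ZMod 3) (H : List α) (i : ZMod N) : (mk N u H i).u = u := rfl
theorem mk_h (u : ZMod 3) (H : List α) (i : ZMod N) : (mk N u H i).h = H.take N := rfl
theorem mk_i (u : ZMod 3) (H : List α) (i : ZMod N) : (mk N u H i).i = i := rfl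

instance [Finite α] [NeZero N] : Finite (Sta α N) := by
  have h1 : Finite {l : List α // l.length ≤ N} := (List.finite_length_le α N).to_subtype
  have h2 : Function.Injective fun p : Sta α N =>
      ((p.u, (⟨p.h, p.2⟩ : {l : List α // l.length ≤ N}), p.i) :
        ZMod 3 × {l : List α // l.length ≤ N} × ZMod N) := by
    intro p q h
    have h3 := (Prod.ext_iff.mp h)
    have h4 := (Prod.ext_iff.mp h3.2)
    exact Sta.ext h3.1 (congrArg Subtype.val h4.1) h4.2
  exact Finite.of_injective _ h2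

open Classical in
/-- one step -/
noncomputable def st (sg : ZMod N → List α → α → ZMod 3) (δ : List α → ZMod 3)
    (p : Sta α N) (b : α) : Option (Sta α N) :=
  if p.i + 1 = 0 then
    (if sg p.i p.h b * p.u = δ ((b :: p.h).take N) then none
      else some (mk N (sg p.i p.h b * p.u - δ ((b :: p.h).take N)) (b :: p.h) 0))
  else some (mk N (sg p.i p.h b * p.u) (b :: p.h) (p.i + 1))

variable {sg : ZMod N → List α → α → ZMod 3} {δ : List α → ZMod 3}

theorem st_none {p : Sta α N} {b : α} (h : st sg δ p b = none) :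
    p.i + 1 = 0 ∧ sg p.i p.h b * p.u = δ ((b :: p.h).take N) := by
  unfold st at h
  split_ifs at h with h1 h2
  exact ⟨h1, h2⟩

theorem st_some {p q : Sta α N} {b : α} (h : st sg δ p b = some q) :
    q.h = (b :: p.h).take N ∧ q.i = p.i + 1 ∧
    ((p.i + 1 = 0 ∧ sg p.i p.h b * p.u ≠ δ ((b :: p.h).take N) ∧
      q.u = sg p.i p.h b * p.u - δ ((b :: p.h).take N)) ∨
     (p.i + 1 ≠ 0 ∧ q.u = sg p.i p.h b * p.u)) := by
  unfold st at h
  split_ifs at h with h1 h2
  · cases h
    exact ⟨rfl, by rw [mk_i, h1], Or.inl ⟨h1, h2, rfl⟩⟩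
  · cases h
    exact ⟨rfl, rfl, Or.inr ⟨h1, rfl⟩⟩

theorem take_append_take (A B : List α) (N : ℕ) : (A ++ B.take N).take N = (A ++ B).take N := by
  rw [List.take_append, List.take_append, List.take_take, Nat.min_eq_left (Nat.sub_le _ _)]

theorem run_h {p q : Sta α N} {w : List α} (h : run (st sg δ) p w = some q) :
    q.h = (w.reverse ++ p.h).take N := by
  induction w generalizing p with
  | nil =>
    cases h
    rw [List.reverse_nil, List.nil_append, List.take_of_length_le (Sta.h_le _)]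
  | cons b w ih =>
    obtain ⟨p', h1, h2⟩ := run_cons_eq_some h
    rw [ih h2, (st_some h1).1, take_append_take, List.reverse_cons, List.append_assoc,
      List.singleton_append]

theorem run_i {p q : Sta α N} {w : List α} (h : run (st sg δ) p w = some q) :
    q.i = p.i + (w.length : ZMod N) := by
  induction w generalizing p with
  | nil => cases h; rw [List.length_nil, Nat.cast_zero, add_zero]
  | cons b w ih =>
    obtain ⟨p', h1, h2⟩ := run_cons_eq_some h
    rw [ih h2, (st_some h1).2.1, List.length_cons, Nat.cast_add, Nat.cast_one]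
    ring

theorem z3a : ∀ x d : ZMod 3, x ≠ 0 → (d = 1 ∨ d = -1) → x ≠ d → x - d = -x := by decide
theorem z3b : ∀ x d : ZMod 3, x ≠ 0 → (d = 1 ∨ d = -1) → d * x ≠ 0 := by decide
theorem z3c : ∀ x y d : ZMod 3, x ≠ 0 → y ≠ 0 → (d = 1 ∨ d = -1) → x ≠ d → y ≠ d → x = y := by
  decide
theorem z3d : ∀ x y s : ZMod 3, (s = 1 ∨ s = -1) → s * x = s * y → x = y := by decide
theorem z3e : ∀ x y s : ZMod 3, (s = 1 ∨ s = -1) → (s * x) * (s * y) = x * y := by decide
theorem z3f : ∀ x y : ZMod 3, x ≠ 0 → y ≠ 0 → x * y ≠ - (x * y) := by decide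

section

variable (hsg : ∀ i H b, sg i H b = 1 ∨ sg i H b = -1) (hδ : ∀ H, δ H = 1 ∨ δ H = -1)

include hsg hδ

theorem st_u {p q : Sta α N} {b : α} (h : st sg δ p b = some q) (hp : p.u ≠ 0) :
    (p.i + 1 = 0 ∧ q.u = -(sg p.i p.h b * p.u)) ∨ (p.i + 1 ≠ 0 ∧ q.u = sg p.i p.h b * p.u) := by
  rcases (st_some h).2.2 with ⟨h1, h2, h3⟩ | h1
  · refine Or.inl ⟨h1, ?_⟩
    rw [h3]
    exact z3a _ _ (z3b _ _ hp (hsg _ _ _)) (hδ _) h2
  · exact Or.inr h1

theorem st_nz {p q : Sta α N} {b : α} (h : st sg δ p b = some q) (hp : p.u ≠ 0) : q.u ≠ 0 := by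
  rcases st_u hsg hδ h hp with ⟨-, h1⟩ | ⟨-, h1⟩
  · rw [h1, neg_ne_zero]; exact z3b _ _ hp (hsg _ _ _)
  · rw [h1]; exact z3b _ _ hp (hsg _ _ _)

theorem run_nz {p q : Sta α N} {w : List α} (h : run (st sg δ) p w = some q) (hp : p.u ≠ 0) :
    q.u ≠ 0 := by
  induction w generalizing p with
  | nil => cases h; exact hp
  | cons b w ih =>
    obtain ⟨p', h1, h2⟩ := run_cons_eq_some h
    exact ih h2 (st_nz hsg hδ h1 hp)

/-- after the end of a block the coordinate is nonzero -/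
theorem run_nz' {p q : Sta α N} {w : List α} (h : run (st sg δ) p w = some q)
    (hj : ∃ j : ℕ, j < w.length ∧ p.i + ((j + 1 : ℕ) : ZMod N) = 0) : q.u ≠ 0 := by
  induction w generalizing p with
  | nil => obtain ⟨j, h1, -⟩ := hj; exact absurd h1 (Nat.not_lt_zero _)
  | cons b w ih =>
    obtain ⟨p', h1, h2⟩ := run_cons_eq_some h
    obtain ⟨j, h3, h4⟩ := hj
    rcases (st_some h1).2.2 with ⟨h5, h6, h7⟩ | ⟨h5, h6⟩
    · exact run_nz hsg hδ h2 (by rw [h7]; exact sub_ne_zero.mpr h6)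
    · have h8 : j ≠ 0 := by
        rintro rfl
        exact h5 (by rw [zero_add, Nat.cast_one] at h4; exact h4)
      obtain ⟨j', rfl⟩ := Nat.exists_eq_succ_of_ne_zero h8
      refine ih h2 ⟨j', ?_, ?_⟩
      · rw [List.length_cons] at h3; omega
      · rw [(st_some h1).2.1, ← h4]; push_cast; ring

/-- two strands in the same phase with the same last letters agree -/
theorem run_same {p q p' q' : Sta α N} {w : List α} (hp : run (st sg δ) p w = some p')
    (hq : run (st sg δ) q w = some q') (hh : p.h = q.h) (hi : p.i = q.i) (hp0 : p.u ≠ 0)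
    (hq0 : q.u ≠ 0) (hj : ∃ j : ℕ, j < w.length ∧ p.i + ((j + 1 : ℕ) : ZMod N) = 0) :
    p.u = q.u := by
  induction w generalizing p q with
  | nil => obtain ⟨j, h1, -⟩ := hj; exact absurd h1 (Nat.not_lt_zero _)
  | cons b w ih =>
    obtain ⟨p₁, h1, h2⟩ := run_cons_eq_some hp
    obtain ⟨q₁, g1, g2⟩ := run_cons_eq_some hq
    obtain ⟨j, h3, h4⟩ := hj
    rcases (st_some h1).2.2 with ⟨h5, h6, h7⟩ | ⟨h5, h6⟩
    · rcases (st_some g1).2.2 with ⟨g5, g6, g7⟩ | ⟨g5, g6⟩
      · rw [← hh, ← hi] at g6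
        exact z3d _ _ _ (hsg p.i p.h b) (z3c _ _ _ (z3b _ _ hp0 (hsg _ _ _))
          (z3b _ _ hq0 (hsg _ _ _)) (hδ _) h6 g6)
      · exact absurd (hi ▸ h5) g5
    · rcases (st_some g1).2.2 with ⟨g5, g6, g7⟩ | ⟨g5, g6⟩
      · exact absurd (hi ▸ g5) h5
      · have h8 : j ≠ 0 := by
          rintro rfl
          exact h5 (by rw [zero_add, Nat.cast_one] at h4; exact h4)
        obtain ⟨j', rfl⟩ := Nat.exists_eq_succ_of_ne_zero h8
        have h9 := ih h2 g2 (by rw [(st_some h1).1, (st_some g1).1, hh])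
          (by rw [(st_some h1).2.1, (st_some g1).2.1, hi]) (st_nz hsg hδ h1 hp0)
          (st_nz hsg hδ g1 hq0) ⟨j', by rw [List.length_cons] at h3; omega, by
            rw [(st_some h1).2.1, ← h4]; push_cast; ring⟩
        rw [h6, g6, ← hh, ← hi] at h9
        exact z3d _ _ _ (hsg p.i p.h b) h9

end

section

variable {h : ℕ} {sg : ZMod (2 * h) → List α → α → ZMod 3}
  (hsg : ∀ i H b, sg i H b = 1 ∨ sg i H b = -1) (hδ : ∀ H, δ H = 1 ∨ δ H = -1)
  (hper : ∀ i H b, sg (i + (h : ℕ)) H b = sg i H b)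

include hsg hδ hper

/-- two strands whose phases differ by half a block -/
theorem run_pair (h0 : 0 < h) {p q p' q' : Sta α (2 * h)} {w : List α} {n : ℕ}
    (hp : run (st sg δ) p w = some p')
    (hq : run (st sg δ) q w = some q') (hh : p.h = q.h) (hi : p.i = (n : ℕ))
    (hi' : q.i = (n : ℕ) + (h : ℕ)) (hp0 : p.u ≠ 0) (hq0 : q.u ≠ 0) :
    p'.u * q'.u = (-1) ^ ((n + w.length) / h + n / h) * (p.u * q.u) := by
  induction w generalizing p q n with
  | nil =>
    cases hp
    cases hq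
    rw [List.length_nil, add_zero, ← two_mul, pow_mul, neg_one_sq, one_pow, one_mul]
  | cons b w ih =>
    obtain ⟨p₁, h1, h2⟩ := run_cons_eq_some hp
    obtain ⟨q₁, g1, g2⟩ := run_cons_eq_some hq
    have e1 := ih (n := n + 1) h2 g2 (by rw [(st_some h1).1, (st_some g1).1, hh])
      (by rw [(st_some h1).2.1, hi]; push_cast; ring)
      (by rw [(st_some g1).2.1, hi']; push_cast; ring)
      (st_nz hsg hδ h1 hp0) (st_nz hsg hδ g1 hq0)
    have e2 : sg q.i q.h b = sg p.i p.h b := by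
      rw [hi', hi, hh]; exact hper _ _ _
    have e3 : p₁.u * q₁.u = (-1) ^ (if h ∣ n + 1 then 1 else 0) * (p.u * q.u) := by
      have c1 : p.i + 1 = 0 ↔ 2 * h ∣ n + 1 := by
        rw [hi, ← ZMod.natCast_eq_zero_iff]; push_cast; rfl
      have c2 : q.i + 1 = 0 ↔ 2 * h ∣ n + 1 + h := by
        rw [hi', ← ZMod.natCast_eq_zero_iff]; push_cast
        rw [show (n : ZMod (2 * h)) + (h : ZMod (2 * h)) + 1 = n + 1 + h by ring]
      have c3 : (2 * h ∣ n + 1) → ¬ (2 * h ∣ n + 1 + h) := by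
        intro a b
        have : 2 * h ∣ h := (Nat.dvd_add_right a).mp b
        have := Nat.le_of_dvd h0 this
        omega
      have c4 : h ∣ n + 1 ↔ (2 * h ∣ n + 1 ∨ 2 * h ∣ n + 1 + h) := by
        constructor
        · rintro ⟨k, hk⟩
          rcases Nat.even_or_odd' k with ⟨m, rfl | rfl⟩
          · exact Or.inl ⟨m, by rw [hk]; ring⟩
          · exact Or.inr ⟨m + 1, by rw [hk]; ring⟩
        · rintro (⟨k, hk⟩ | ⟨k, hk⟩)
          · exact ⟨2 * k, by rw [hk]; ring⟩
          · have : h ∣ n + 1 + h := ⟨2 * k, by rw [hk]; ring⟩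
            exact (Nat.dvd_add_left (dvd_refl h)).mp this
      have c5 := z3e p.u q.u _ (hsg p.i p.h b)
      rcases st_u hsg hδ h1 hp0 with ⟨a1, a2⟩ | ⟨a1, a2⟩ <;>
      rcases st_u hsg hδ g1 hq0 with ⟨b1, b2⟩ | ⟨b1, b2⟩
      · exact absurd (c2.mp b1) (c3 (c1.mp a1))
      · rw [a2, b2, e2, if_pos (c4.mpr (Or.inl (c1.mp a1))), pow_one, neg_mul, c5, neg_one_mul]
      · rw [a2, b2, e2, if_pos (c4.mpr (Or.inr (c2.mp b1))), pow_one, mul_neg, c5, neg_one_mul]
      · rw [a2, b2, e2, if_neg (by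
          rw [c4]; rintro (a | a)
          · exact a1 (c1.mpr a)
          · exact b1 (c2.mpr a)), pow_zero, c5, one_mul]
    rw [e1, e3, Nat.succ_div, List.length_cons, show n + 1 + w.length = n + (w.length + 1) by ring]
    split_ifs with hd
    · rw [pow_add, pow_add, pow_add, pow_one]; ring
    · rw [add_zero, pow_zero, one_mul]

end

section

variable {σ : Type} {d : σ → α → Option σ}

theorem pw_add (a b : ℕ) (z : List α) : pw (a + b) z = pw a z ++ pw b z := by
  rw [pw, pw, pw, List.replicate_add, List.flatten_append]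

theorem pw_length (k : ℕ) (z : List α) : (pw k z).length = k * z.length := by
  induction k with
  | zero => rw [pw_zero, List.length_nil, Nat.zero_mul]
  | succ k ih => rw [pw_succ', List.length_append, ih, Nat.succ_mul]

theorem run_pw_mul {s : σ} {z : List α} {n : ℕ} (hs : run d s (pw n z) = some s) (m : ℕ) :
    run d s (pw (n * m) z) = some s := by
  induction m with
  | zero => rfl
  | succ m ih => rw [Nat.mul_succ, pw_add, run_append _ ih, hs]

theorem fin_append (b s : σ) (u v : List α) :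
    fin d b s (u ++ v) = fin d b (fin d b s u) v := by
  induction u generalizing s with
  | nil => rfl
  | cons x u ih =>
    rw [List.cons_append]
    rcases hs : d s x with _ | t
    · rw [fin_cons_none _ hs, fin_cons_none _ hs, ih]
    · rw [fin_cons_some _ hs, fin_cons_some _ hs, ih]

end

theorem exists_end (N : ℕ) [NeZero N] (i : ZMod N) :
    ∃ j : ℕ, j < N ∧ i + ((j + 1 : ℕ) : ZMod N) = 0 := by
  have h1 := ZMod.val_lt i
  refine ⟨N - i.val - 1, by omega, ?_⟩
  have h2 : N - i.val - 1 + 1 = N - i.val := by omega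
  rw [h2]
  have h3 : ((i.val + (N - i.val) : ℕ) : ZMod N) = 0 := by
    rw [show i.val + (N - i.val) = N by omega, ZMod.natCast_self]
  rw [Nat.cast_add, ZMod.natCast_zmod_val] at h3
  exact h3

/-- **The automaton has no cycles.** -/
theorem noCyc (r : ℕ) {sg : ZMod (2 * 2 ^ r) → List α → α → ZMod 3}
    (hsg : ∀ i H b, sg i H b = 1 ∨ sg i H b = -1) (hδ : ∀ H, δ H = 1 ∨ δ H = -1)
    (hper : ∀ i H b, sg (i + ((2 ^ r : ℕ) : ZMod (2 * 2 ^ r))) H b = sg i H b) :
    NoCyc (st sg δ) := by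
  apply noCyc_of
  intro z s n hz hn hs
  have h2r : 0 < 2 ^ r := Nat.pos_of_ne_zero (pow_ne_zero r two_ne_zero)
  have hN : 0 < 2 * 2 ^ r := by omega
  have hne : NeZero (2 * 2 ^ r) := ⟨hN.ne'⟩
  have hL : 0 < z.length := List.length_pos_of_ne_nil hz
  have hlen : 2 * 2 ^ r ≤ (pw (n * (2 * 2 ^ r)) z).length := by
    rw [pw_length]
    calc 2 * 2 ^ r = 1 * (2 * 2 ^ r) * 1 := by ring
      _ ≤ n * (2 * 2 ^ r) * z.length := by
        apply Nat.mul_le_mul (Nat.mul_le_mul hn le_rfl) hL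
  -- facts about all looping states
  have hh : ∀ s', run (st sg δ) s' (pw n z) = some s' →
      s'.h = (pw (n * (2 * 2 ^ r)) z).reverse.take (2 * 2 ^ r) := by
    intro s' hs'
    have h1 := run_h (run_pw_mul hs' (2 * 2 ^ r))
    rw [List.take_append_of_le_length (by rw [List.length_reverse]; exact hlen)] at h1
    exact h1
  have hu : ∀ s', run (st sg δ) s' (pw n z) = some s' → s'.u ≠ 0 := by
    intro s' hs'
    obtain ⟨j, h1, h2⟩ := exists_end (2 * 2 ^ r) s'.i
    exact run_nz' hsg hδ (run_pw_mul hs' (2 * 2 ^ r)) ⟨j, by omega, h2⟩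
  -- whole blocks
  have hA : ∀ k s', 2 * 2 ^ r ∣ k * z.length → run (st sg δ) s (pw k z) = some s' →
      run (st sg δ) s' (pw n z) = some s' → s' = s := by
    intro k s' hk h1 h2
    have hi : s'.i = s.i := by
      rw [run_i h1, pw_length, (ZMod.natCast_eq_zero_iff _ _).mpr hk, add_zero]
    have hh' : s'.h = s.h := by rw [hh s' h2, hh s hs]
    obtain ⟨j, h3, h4⟩ := exists_end (2 * 2 ^ r) s'.i
    exact Sta.ext (run_same hsg hδ (run_pw_mul h2 (2 * 2 ^ r)) (run_pw_mul hs (2 * 2 ^ r)) hh' hi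
      (hu s' h2) (hu s hs) ⟨j, by omega, h4⟩) hh' hi
  by_cases hd : 2 * 2 ^ r ∣ z.length
  · obtain ⟨s', h1, h2⟩ := run_move hn hs 1
    have h3 := hA 1 s' (by rw [one_mul]; exact hd) h1 h2
    rw [pw_succ, pw_zero, List.append_nil, h3] at h1
    exact h1
  · exfalso
    obtain ⟨k, m, hm, hk⟩ : ∃ k m, Odd m ∧ k * z.length = 2 ^ r * m := by
      obtain ⟨e, m, hm, he⟩ := Nat.exists_eq_two_pow_mul_odd hL.ne'
      have he' : e ≤ r := by
        by_contra hcon
        apply hd
        rw [he]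
        have : 2 * 2 ^ r ∣ 2 ^ e := by
          rw [← pow_succ']
          exact pow_dvd_pow 2 (by omega)
        exact Dvd.dvd.mul_right this m
      refine ⟨2 ^ (r - e), m, hm, ?_⟩
      rw [he, ← mul_assoc, ← pow_add, Nat.sub_add_cancel he']
    obtain ⟨t, h1, h2⟩ := run_move hn hs k
    obtain ⟨s', h3, h4⟩ := run_move hn hs (k + k)
    have h5 := hA (k + k) s' (by
      rw [Nat.add_mul, hk]
      exact ⟨m, by ring⟩) h3 h4
    rw [h5, pw_add, run_append _ h1] at h3
    have hti : t.i = ((s.i.val : ℕ) : ZMod (2 * 2 ^ r)) + ((2 ^ r : ℕ) : ZMod (2 * 2 ^ r)) := by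
      rw [run_i h1, pw_length, hk, ZMod.natCast_zmod_val]
      obtain ⟨m', rfl⟩ := hm
      congr 1
      rw [show 2 ^ r * (2 * m' + 1) = (2 * 2 ^ r) * m' + 2 ^ r by ring, Nat.cast_add, Nat.cast_mul,
        ZMod.natCast_self, zero_mul, zero_add]
    have h6 := run_pair hsg hδ hper h2r (n := s.i.val) h1 h3 (by rw [hh s hs, hh t h2])
      (ZMod.natCast_zmod_val _).symm hti (hu s hs) (hu t h2)
    rw [pw_length, hk, Nat.add_mul_div_left _ _ h2r] at h6
    have h7 : Odd (s.i.val / 2 ^ r + m + s.i.val / 2 ^ r) := by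
      rw [show s.i.val / 2 ^ r + m + s.i.val / 2 ^ r = 2 * (s.i.val / 2 ^ r) + m by ring]
      exact Even.add_odd (even_two_mul _) hm
    rw [h7.neg_one_pow, neg_one_mul, mul_comm] at h6
    exact z3f _ _ (hu s hs) (hu t h2) h6

/-- twisted count with kicks only at the positions `≡ - i₀` modulo `N` -/
def V {α : Type} (N i₀ : ℕ) (s τ : List α → α → ZMod 3) : List α → ZMod 3
  | [] => 0
  | b :: X => s X b * V N i₀ s τ X + if N ∣ X.length + 1 + i₀ then τ X b else 0

/-- what the state knows after the history `X` -/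
def Inv (i₀ : ℕ) (s τ : List α → α → ZMod 3) (X : List α) (p : Sta α N) : Prop :=
  p.u = V N i₀ s τ X ∧ p.i = ((X.length + i₀ : ℕ) : ZMod N) ∧
    (p.h = X.take N ∨ (p.u = 0 ∧ ∃ k, k < N ∧ p.h = X.take k ∧
      ((X.length + i₀ : ℕ) : ZMod N) = (k : ZMod N)))

theorem inv_step (hN : 0 < N) {i₀ : ℕ} {s τ : List α → α → ZMod 3}
    (ha : ∀ X b, sg ((X.length + i₀ : ℕ) : ZMod N) (X.take N) b = s X b)
    (hb : ∀ X b, N ∣ X.length + 1 + i₀ → δ ((b :: X).take N) = - τ X b)
    {X : List α} {p : Sta α N} (h : Inv i₀ s τ X p) (b : α) :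
    Inv i₀ s τ (b :: X) (fin (st sg δ) (mk N 0 [] 0) p [b]) := by
  obtain ⟨h1, h2, h3⟩ := h
  have hs : sg p.i p.h b * p.u = s X b * V N i₀ s τ X := by
    rcases h3 with h3 | ⟨h3, -⟩
    · rw [h3, h2, ha, h1]
    · rw [← h1, h3, mul_zero, mul_zero]
  have hblk : p.i + 1 = 0 ↔ N ∣ X.length + 1 + i₀ := by
    rw [h2, ← ZMod.natCast_eq_zero_iff]
    push_cast
    rw [show (X.length : ZMod N) + (i₀ : ZMod N) + 1 = X.length + 1 + i₀ by ring]
  have hH : p.i + 1 = 0 → (b :: p.h).take N = (b :: X).take N := by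
    intro h0
    obtain ⟨M, rfl⟩ : ∃ M, N = M + 1 := ⟨N - 1, by omega⟩
    rcases h3 with h3 | ⟨-, k, hk, h4, h5⟩
    · rw [h3, List.take_succ_cons, List.take_succ_cons, List.take_take,
        Nat.min_eq_left (Nat.le_succ M)]
    · rw [h2, h5] at h0
      have h6 : ((k + 1 : ℕ) : ZMod (M + 1)) = 0 := by rw [Nat.cast_add, Nat.cast_one]; exact h0
      have := Nat.le_of_dvd (Nat.succ_pos k) ((ZMod.natCast_eq_zero_iff _ _).mp h6)
      have : k = M := by omega
      rw [h4, this, List.take_succ_cons, List.take_succ_cons, List.take_take, Nat.min_self]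
  have hlen : (((b :: X).length + i₀ : ℕ) : ZMod N) = p.i + 1 := by
    rw [h2, List.length_cons]; push_cast; ring
  rcases hst : st sg δ p b with _ | q
  · obtain ⟨g1, g2⟩ := st_none hst
    rw [fin_cons_none _ hst, fin_nil]
    have g3 : (0 : ZMod 3) = V N i₀ s τ (b :: X) := by
      rw [V, if_pos (hblk.mp g1), ← hs, g2, hH g1, hb X b (hblk.mp g1), neg_add_cancel]
    refine ⟨g3, ?_, Or.inr ⟨rfl, 0, hN, ?_, ?_⟩⟩
    · rw [mk_i, hlen, g1]
    · rw [mk_h, List.take_nil, List.take_zero]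
    · rw [hlen, g1, Nat.cast_zero]
  · obtain ⟨g1, g2, g3⟩ := st_some hst
    rw [fin_cons_some _ hst, fin_nil]
    rcases g3 with ⟨g4, g5, g6⟩ | ⟨g4, g5⟩
    · refine ⟨?_, by rw [g2, hlen], Or.inl (by rw [g1, hH g4])⟩
      rw [g6, V, if_pos (hblk.mp g4), hs, hH g4, hb X b (hblk.mp g4), sub_neg_eq_add]
    · refine ⟨?_, by rw [g2, hlen], ?_⟩
      · rw [g5, V, if_neg (fun h => g4 (hblk.mpr h)), hs, add_zero]
      · rcases h3 with h3 | ⟨h3, k, hk, h4, h5⟩
        · left
          rw [g1, h3]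
          obtain ⟨M, rfl⟩ : ∃ M, N = M + 1 := ⟨N - 1, by omega⟩
          rw [List.take_succ_cons, List.take_succ_cons, List.take_take,
            Nat.min_eq_left (Nat.le_succ M)]
        · right
          have hk' : k + 1 ≠ N := by
            rintro rfl
            apply g4
            have h6 : ((k + 1 : ℕ) : ZMod (k + 1)) = 0 := ZMod.natCast_self _
            rw [Nat.cast_add, Nat.cast_one] at h6
            rw [h2, h5, h6]
          refine ⟨by rw [g5, h3, mul_zero], k + 1, by omega, ?_, ?_⟩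
          · rw [g1, h4, List.take_succ_cons, List.take_of_length_le]
            rw [List.length_cons, List.length_take]; omega
          · rw [hlen, h2, h5]; push_cast; ring

theorem inv_all (hN : 0 < N) {i₀ : ℕ} {s τ : List α → α → ZMod 3}
    (ha : ∀ X b, sg ((X.length + i₀ : ℕ) : ZMod N) (X.take N) b = s X b)
    (hb : ∀ X b, N ∣ X.length + 1 + i₀ → δ ((b :: X).take N) = - τ X b) (X : List α) :
    Inv i₀ s τ X (fin (st sg δ) (mk N 0 [] 0) (mk N 0 [] (i₀ : ZMod N)) X.reverse) := by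
  induction X with
  | nil =>
    refine ⟨rfl, ?_, Or.inl ?_⟩
    · rw [List.reverse_nil, fin_nil, mk_i, List.length_nil, Nat.zero_add]
    · rw [List.reverse_nil, fin_nil, mk_h]
  | cons b X ih =>
    rw [List.reverse_cons, fin_append]
    exact inv_step hN ha hb ih b

theorem knV (α : Type) [Finite α] (r i₀ c : ℕ) (hc : c < 2 ^ (r + 1))
    (s τ : List α → α → ZMod 3)
    (hs : ∀ X b, s X b = 1 ∨ s X b = -1) (hτ : ∀ X b, τ X b = 1 ∨ τ X b = -1)
    (hsl : ∀ X Y b, X.length % 2 ^ r = Y.length % 2 ^ r → X.take c = Y.take c → s X b = s Y b)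
    (hτl : ∀ X Y b, X.length % 2 ^ r = Y.length % 2 ^ r → X.take c = Y.take c →
      τ X b = τ Y b) :
    Kn fun w : List α => V (2 ^ (r + 1)) i₀ s τ w.reverse := by
  classical
  rw [pow_succ'] at hc ⊢
  have h2r : 0 < 2 ^ r := Nat.pos_of_ne_zero (pow_ne_zero r two_ne_zero)
  have hN : 0 < 2 * 2 ^ r := by omega
  have hne : NeZero (2 * 2 ^ r) := ⟨hN.ne'⟩
  have hdv : 2 ^ r ∣ 2 * 2 ^ r := ⟨2, by ring⟩
  let φ := ZMod.castHom hdv (ZMod (2 ^ r))
  let sg : ZMod (2 * 2 ^ r) → List α → α → ZMod 3 := fun i H b =>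
    if hx : ∃ X : List α, ((X.length + i₀ : ℕ) : ZMod (2 ^ r)) = φ i ∧ X.take c = H.take c then
      s hx.choose b else 1
  let δ : List α → ZMod 3 := fun L =>
    if hx : ∃ Y : List α × α, 2 * 2 ^ r ∣ Y.1.length + 1 + i₀ ∧
      (Y.2 :: Y.1).take (2 * 2 ^ r) = L then
      - τ hx.choose.1 hx.choose.2 else 1
  have hsg : ∀ i H b, sg i H b = 1 ∨ sg i H b = -1 := by
    intro i H b
    by_cases hx : ∃ X : List α, ((X.length + i₀ : ℕ) : ZMod (2 ^ r)) = φ i ∧ X.take c = H.take c
    · have h1 : sg i H b = s hx.choose b := dif_pos hx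
      rw [h1]; exact hs _ _
    · have h1 : sg i H b = 1 := dif_neg hx
      exact Or.inl h1
  have hδ : ∀ L, δ L = 1 ∨ δ L = -1 := by
    intro L
    by_cases hx : ∃ Y : List α × α, 2 * 2 ^ r ∣ Y.1.length + 1 + i₀ ∧
      (Y.2 :: Y.1).take (2 * 2 ^ r) = L
    · have h1 : δ L = - τ hx.choose.1 hx.choose.2 := dif_pos hx
      rw [h1]
      rcases hτ hx.choose.1 hx.choose.2 with h | h
      · exact Or.inr (by rw [h])
      · exact Or.inl (by rw [h, neg_neg])
    · have h1 : δ L = 1 := dif_neg hx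
      exact Or.inl h1
  have hper : ∀ i H b, sg (i + ((2 ^ r : ℕ) : ZMod (2 * 2 ^ r))) H b = sg i H b := by
    intro i H b
    have h1 : φ (i + ((2 ^ r : ℕ) : ZMod (2 * 2 ^ r))) = φ i := by
      rw [map_add, map_natCast, ZMod.natCast_self, add_zero]
    simp only [sg, h1]
  have ha : ∀ X b, sg ((X.length + i₀ : ℕ) : ZMod (2 * 2 ^ r)) (X.take (2 * 2 ^ r)) b = s X b := by
    intro X b
    have hx : ∃ X' : List α, ((X'.length + i₀ : ℕ) : ZMod (2 ^ r)) =
        φ ((X.length + i₀ : ℕ) : ZMod (2 * 2 ^ r)) ∧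
        X'.take c = (X.take (2 * 2 ^ r)).take c := by
      refine ⟨X, (map_natCast φ _).symm, ?_⟩
      rw [List.take_take, Nat.min_eq_left hc.le]
    have h1 : sg ((X.length + i₀ : ℕ) : ZMod (2 * 2 ^ r)) (X.take (2 * 2 ^ r)) b =
      s hx.choose b := dif_pos hx
    rw [h1]
    obtain ⟨h2, h3⟩ := hx.choose_spec
    generalize hx.choose = X' at h2 h3 ⊢
    rw [map_natCast, ZMod.natCast_eq_natCast_iff] at h2
    rw [List.take_take, Nat.min_eq_left hc.le] at h3
    exact hsl _ _ b (Nat.ModEq.add_right_cancel' i₀ h2) h3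
  have hb : ∀ X b, 2 * 2 ^ r ∣ X.length + 1 + i₀ → δ ((b :: X).take (2 * 2 ^ r)) = - τ X b := by
    intro X b hX
    have hx : ∃ Y : List α × α, 2 * 2 ^ r ∣ Y.1.length + 1 + i₀ ∧
      (Y.2 :: Y.1).take (2 * 2 ^ r) = (b :: X).take (2 * 2 ^ r) := ⟨(X, b), hX, rfl⟩
    have h1 : δ ((b :: X).take (2 * 2 ^ r)) = - τ hx.choose.1 hx.choose.2 := dif_pos hx
    rw [h1]
    obtain ⟨h2, h3⟩ := hx.choose_spec
    generalize hx.choose = Y at h2 h3
    obtain ⟨Y, b'⟩ := Y
    change (b' :: Y).take (2 * 2 ^ r) = _ at h3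
    change 2 * 2 ^ r ∣ Y.length + 1 + i₀ at h2
    change - τ Y b' = - τ X b
    obtain ⟨M, hM⟩ : ∃ M, 2 * 2 ^ r = M + 1 := ⟨2 * 2 ^ r - 1, by omega⟩
    rw [hM, List.take_succ_cons, List.take_succ_cons] at h3
    injection h3 with h4 h5
    rw [h4]
    congr 1
    apply hτl
    · have h6 : Y.length + (1 + i₀) ≡ X.length + (1 + i₀) [MOD 2 ^ r] := by
        rw [← Nat.add_assoc, ← Nat.add_assoc]
        exact ((Nat.modEq_zero_iff_dvd.mpr (hdv.trans h2)).trans
          (Nat.modEq_zero_iff_dvd.mpr (hdv.trans hX)).symm)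
      exact Nat.ModEq.add_right_cancel' _ h6
    · have h7 := congrArg (List.take c) h5
      rwa [List.take_take, List.take_take, Nat.min_eq_left (by omega)] at h7
  have h1 := (Kn.of_event (noCyc r hsg hδ hper) (mk _ 0 [] 0)
    (mk _ 0 [] (i₀ : ZMod (2 * 2 ^ r)))).comp fun p : Sta α (2 * 2 ^ r) => p.u
  refine Eq.mp (congrArg Kn ?_) h1
  funext w
  have h2 := (inv_all hN ha hb w.reverse).1
  rw [List.reverse_reverse] at h2
  exact h2

end Vale.Agent.P329.H954
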