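import Mathlib.Data.Set.Card
import Vale.Agent.P329.H559.Cls

/-! Definitions used in the statement. -/

namespace Vale.Agent.P329.H954

/-- The letter `a` acts as the identity on the states of `C` where it does not lead out of `C`. -/
def IdOn {α X : Type} (δ : X → α → X) (C : Set X) (a : α) : Prop :=
  ∀ x ∈ C, δ x a ∈ C → δ x a = x

/-- The values of the word `v` in `C`. -/
def Val {α X : Type} (δ : X → α → X) (C : Set X) (v : List α) : Set X :=
  {z | z ∈ C ∧ ∃ x ∈ C, v.foldl δ x = z}

/-- The group generated by the permutations of the values of the letter `a` in `C` which are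
induced by words of letters which do not act as the identity. -/
def ValGroup {α X : Type} (δ : X → α → X) (C : Set X) (a : α) :
    Subgroup (Equiv.Perm (Val δ C [a])) :=
  Subgroup.closure {π | ∃ v : List α, (∀ b ∈ v, ¬ IdOn δ C b) ∧
    ∀ z : Val δ C [a], v.foldl δ (z : X) = π z}

/-- The set `C` of states is `k`-valued for some `k`: each letter acts as the identity where it
does not lead out of `C`, or has at most `k` values in `C`; each word of letters which are not of
the first kind and which has a nontrivial cycle in `C` has at least `k` values in `C`; and `k ≤ 3`,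
or for each letter with `k` values, not of the first kind, the group of permutations of its values
induced by words is in the class `CtxClass 1`. -/
def KValued {α X : Type} (δ : X → α → X) (C : Set X) : Prop :=
  ∃ k : ℕ, (∀ a, IdOn δ C a ∨ (Val δ C [a]).ncard ≤ k) ∧
    (∀ v : List α, (∀ a ∈ v, ¬ IdOn δ C a) → ∀ x ∈ C, ∀ n : ℕ, 0 < n →
      (fun s => v.foldl δ s)^[n] x = x → v.foldl δ x ≠ x → k ≤ (Val δ C v).ncard) ∧
    (k ≤ 3 ∨ ∀ a, ¬ IdOn δ C a → (Val δ C [a]).ncard = k → H559.CtxClass 1 (ValGroup δ C a))

/-- The component `C` has at most three states, or four states and all letters which map `C` into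
`C` have fibres of equal size, or it is `k`-valued for some `k`. -/
def SmallOrValued {α X : Type} (δ : X → α → X) (C : Set X) : Prop :=
  C.ncard ≤ 3 ∨
  (C.ncard = 4 ∧ ∀ a, (∀ x ∈ C, δ x a ∈ C) → ∀ x ∈ C, ∀ y ∈ C,
    {s | s ∈ C ∧ δ s a = δ x a}.ncard = {s | s ∈ C ∧ δ s a = δ y a}.ncard) ∨
  KValued δ C

end Vale.Agent.P329.H954
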