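import Vale.Agent.P329.H954.Defs

/-! Definitions used in the statement. -/

namespace Vale.Agent.P329.H954.Del.Var

/-- The group generated by the permutations of the values of the word `r` in `C` which are
induced by words of letters which do not act as the identity. -/
def ValGroup {α X : Type} (δ : X → α → X) (C : Set X) (r : List α) :
    Subgroup (Equiv.Perm (Val δ C r)) :=
  Subgroup.closure {π | ∃ v : List α, (∀ b ∈ v, ¬ IdOn δ C b) ∧
    ∀ z : Val δ C r, v.foldl δ (z : X) = π z}

/-- For some `c`, each word `v` of at least `c` letters which do not act as the identity on `C`,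
with a nontrivial cycle in `C`, has as many values in `C` as the word of its last `c` letters, and
it has at most three values, or the group of permutations of these values induced by words is in the
class `CtxClass 1`. -/
def Valued {α X : Type} (δ : X → α → X) (C : Set X) : Prop :=
  ∃ c : ℕ, ∀ v : List α, c ≤ v.length → (∀ b ∈ v, ¬ IdOn δ C b) →
    (∃ x ∈ C, ∃ n : ℕ, 0 < n ∧ (fun s => v.foldl δ s)^[n] x = x ∧ v.foldl δ x ≠ x) →
    (Val δ C (v.drop (v.length - c))).ncard ≤ (Val δ C v).ncard ∧
    ((Val δ C v).ncard ≤ 3 ∨ H559.CtxClass 1 (ValGroup δ C (v.drop (v.length - c))))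

/-- The component `C` has at most three states, or four states and all letters which map `C` into
`C` have fibres of equal size, or it is `Valued`. -/
def SmallOrValued {α X : Type} (δ : X → α → X) (C : Set X) : Prop :=
  C.ncard ≤ 3 ∨
  (C.ncard = 4 ∧ ∀ a, (∀ x ∈ C, δ x a ∈ C) → ∀ x ∈ C, ∀ y ∈ C,
    {s | s ∈ C ∧ δ s a = δ x a}.ncard = {s | s ∈ C ∧ δ s a = δ y a}.ncard) ∨
  Valued δ C

end Vale.Agent.P329.H954.Del.Var
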