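import Vale.Agent.P329.H954.Comp

/-!
# P329: monoids which are aperiodic over automata, groups and context products
-/

set_option linter.all false

namespace Vale.Agent.P329.H954

open Vale.Agent.P329 Vale.Agent.P329.H112 Vale.Agent.P329.H647 Vale.Agent.P329.H96
  Vale.Agent.P329.H550

/-- disjoint union of automata -/
theorem mapLe_sigma {α ι : Type} [Finite α] [Finite ι] {X : ι → Type} [∀ i, Finite (X i)]
    (δ : ∀ i, X i → α → X i) (h : ∀ i x y, SH 1 {w : List α | w.foldl (δ i) x = y}) :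
    ∃ D : (Σ i, X i) → α → (Σ i, X i), MapLe 1 (H550.tr D) ∧
      ∀ (w : List α) (i : ι) (x : X i), w.foldl D ⟨i, x⟩ = ⟨i, w.foldl (δ i) x⟩ := by
  let D : (Σ i, X i) → α → (Σ i, X i) := fun x a => ⟨x.1, δ x.1 x.2 a⟩
  have hD : ∀ (w : List α) (i : ι) (x : X i), w.foldl D ⟨i, x⟩ = ⟨i, w.foldl (δ i) x⟩ := by
    intro w
    induction w with
    | nil => intro i x; rfl
    | cons a w ih => intro i x; rw [List.foldl_cons, List.foldl_cons]; exact ih i _
  refine ⟨D, mapLe_tr D fun p q => ?_, hD⟩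
  obtain ⟨i, x⟩ := p
  obtain ⟨j, y⟩ := q
  by_cases hij : i = j
  · subst hij
    refine Eq.mp (congrArg (SH 1) ?_) (h i x y)
    ext w
    simp only [Set.mem_setOf_eq]
    rw [hD]
    constructor
    · intro h; rw [h]
    · intro h
      simpa using h
  · refine Eq.mp (congrArg (SH 1) ?_) SH.empty
    ext w
    simp only [Set.mem_empty_iff_false, Set.mem_setOf_eq, false_iff]
    rw [hD]
    intro h
    exact hij (congrArg Sigma.fst h)

/-- finite products of maps of the letters -/
theorem mapLe_pi {α κ : Type} [Finite α] [Finite κ] {H : κ → Type} [∀ k, Monoid (H k)]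
    [∀ k, Finite (H k)] {h : ℕ} (F : α → ∀ k, H k) (hF : ∀ k, MapLe h fun a => F a k) :
    MapLe h F := by
  intro S
  have h1 : SH h (⋃ m : (∀ k, H k), ⋃ _ : m ∈ S,
      ⋂ k, {w : List α | (w.map fun a => F a k).prod ∈ ({m k} : Set (H k))}) :=
    SH.iUnion fun m => SH.iUnion_prop fun _ => SH.iInter fun k => hF k {m k}
  have h2 : ∀ (w : List α) (k : κ), (w.map F).prod k = (w.map fun a => F a k).prod := by
    intro w k
    induction w with
    | nil => rfl
    | cons a w ih => rw [List.map_cons, List.prod_cons, Pi.mul_apply, ih, List.map_cons,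
        List.prod_cons]
  refine Eq.mp (congrArg (SH h) ?_) h1
  ext w
  simp only [Set.mem_iUnion, exists_prop, Set.mem_iInter, Set.mem_setOf_eq,
    Set.mem_singleton_iff]
  constructor
  · rintro ⟨m, hm, h3⟩
    have h4 : (w.map F).prod = m := funext fun k => by rw [h2, h3]
    rw [h4]; exact hm
  · intro h3
    exact ⟨_, h3, fun k => (h2 w k).symm⟩

/-- **Everything together.** -/
theorem over_all {α ι κ θ : Type} [Finite α] [Finite ι] [Finite κ] [Finite θ] (X : ι → Type)
    [∀ i, Finite (X i)] (δ : ∀ i, X i → α → X i)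
    (hδ : ∀ i x y, SH 1 {w : List α | w.foldl (δ i) x = y})
    (H : κ → Type) [∀ k, Monoid (H k)] [∀ k, Finite (H k)] (F : α → ∀ k, H k)
    (hF : ∀ k, MapLe 1 fun a => F a k)
    (K : θ → Type) [∀ j, Group (K j)] [∀ j, Finite (K j)] (n : θ → ℕ) (hn : ∀ j, n j ≠ 0)
    (hL : ∀ j, H434.LocK (n j)) (hK : ∀ j, H434.CtxK (n j) (K j)) (c : θ → ℕ)
    (ψ : ∀ j, ZMod (n j) → List α → α → K j)
    (M : Type) [Monoid M] [Finite M] (φ : α → M)
    (hφ : ∀ v : List α, v ≠ [] → (v.map F).prod * (v.map F).prod = (v.map F).prod →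
      (∀ i x, v.foldl (δ i) (v.foldl (δ i) x) = v.foldl (δ i) x) →
      (∀ j, n j ∣ v.length ∧ c j ≤ v.length ∧ ∀ u : List α,
        ctxProdN (n j) (c j) (ψ j) (u ++ v ++ v) = ctxProdN (n j) (c j) (ψ j) (u ++ v)) →
        ∃ k, (v.map φ).prod ^ (k + 1) = (v.map φ).prod ^ k) : MapLe 1 φ := by
  classical
  have hnz : ∀ j, NeZero (n j) := fun j => ⟨hn j⟩
  have hfin : ∀ j, Finite (H434.CSN α (K j) (n j) (c j)) := by
    intro j
    have h1 : Finite {Z : List α // Z.length ≤ c j} := (List.finite_length_le α (c j)).to_subtype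
    have h2 := hnz j
    infer_instance
  obtain ⟨D, s1, hD⟩ := mapLe_sigma δ hδ
  obtain ⟨E, s2, hE⟩ := mapLe_sigma (fun j => H434.cstepN (c := c j) (ψ j))
    (fun j x y => H434.cstepN_sh (hL j) (hK j) (ψ j) x y)
  have s3 : MapLe 1 F := mapLe_pi F hF
  refine H162.Str.straubing _ (mapLe_prod s3 (mapLe_prod s1 s2)) φ fun v hv hid => ?_
  rw [prod_pair, prod_pair] at hid
  have h1 := congrArg Prod.fst hid
  have h2 := congrArg (fun x => x.2.1) hid
  have h3 := congrArg (fun x => x.2.2) hid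
  simp only [Prod.fst_mul, Prod.snd_mul] at h1 h2 h3
  refine hφ v hv h1 (fun i x => ?_) (fun j => ?_)
  · have h4 := congrArg (fun m : Tr (Σ i, X i) => m.f ⟨i, x⟩) h2
    simp only [Tr.mul_f, H550.tr_prod] at h4
    rw [hD, hD] at h4
    simpa using h4
  · have hid' : ∀ q : H434.CSN α (K j) (n j) (c j),
        v.foldl (H434.cstepN (ψ j)) (v.foldl (H434.cstepN (ψ j)) q) =
          v.foldl (H434.cstepN (ψ j)) q := by
      intro q
      have h4 := congrArg (fun m : Tr (Σ j, H434.CSN α (K j) (n j) (c j)) => m.f ⟨j, q⟩) h3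
      simp only [Tr.mul_f, H550.tr_prod] at h4
      rw [hE, hE] at h4
      simpa using h4
    have h5 := hid' (0, ⟨[], Nat.zero_le _⟩, 1)
    obtain ⟨a1, a2, a3⟩ := H434.cstepN_run (c := c j) (ψ j)
      ((0, ⟨[], Nat.zero_le _⟩, 1) : H434.CSN α (K j) (n j) (c j)) v
    obtain ⟨b1, b2, b3⟩ := H434.cstepN_run (c := c j) (ψ j)
      (v.foldl (H434.cstepN (ψ j)) ((0, ⟨[], Nat.zero_le _⟩, 1) :
        H434.CSN α (K j) (n j) (c j))) v
    rw [h5] at b1 b2
    refine ⟨?_, ?_, fun u => ?_⟩
    · exact (ZMod.natCast_eq_zero_iff _ _).mp (left_eq_add.mp b1)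
    · rw [a2] at b2
      have h6 := congrArg List.length b2
      rw [List.length_take, List.length_take, List.length_append, List.length_append,
        List.length_take, List.length_reverse, List.length_append, List.length_reverse,
        List.length_nil] at h6
      have h7 : 0 < v.length := List.length_pos_of_ne_nil hv
      change min (c j) (v.length + 0) = min (c j) (v.length + min (c j) (v.length + 0)) at h6
      omega
    · have h8 := hid' (u.foldl (H434.cstepN (ψ j)) (0, ⟨[], Nat.zero_le _⟩, 1))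
      rw [← H434.ctxProdN_eq, ← H434.ctxProdN_eq, List.foldl_append, List.foldl_append, h8]

end Vale.Agent.P329.H954
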