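import Vale.Agent.P329.H954.Kval
import Vale.Agent.P329.H954.Over
import Vale.Agent.P329.H697.Main2
import Vale.Agent.P329.H559.Win

/-!
# P329: windows with the symmetric group of degree three, final forms
-/

set_option linter.all false

namespace Vale.Agent.P329.H954

open Vale.Agent.P329 Vale.Agent.P329.H112 Vale.Agent.P329.H647 Vale.Agent.P329.H96
  Vale.Agent.P329.H550

section comp

variable {α X : Type} {δ : X → α → X}

theorem basic_sh [Finite α] [Finite X] (h : ∀ p, SmallOrValued δ (Cmp δ p)) (p q : X) :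
    SH 1 {w : List α | w.foldl δ p = q} := by
  refine scc_sh δ (fun p z hz => ?_) _ p q le_rfl
  rcases h p with h | h | h
  · exact comp_sh δ 0 p z hz h
  · exact four_comp δ p z hz h
  · exact comp_k p z hz h

end comp

theorem dfa_height {α σ : Type} [Finite α] [Finite σ] (A : DFA α σ)
    (hA : ∀ p q : σ, SH 1 {w : List α | w.foldl A.step p = q}) :
    SH 1 {w : List α | w ∈ A.accepts} := by
  have h1 : SH 1 (⋃ q : σ, ⋃ _ : q ∈ A.accept,
      {w : List α | w.foldl A.step A.start = q}) :=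
    SH.iUnion fun q => SH.iUnion_prop fun _ => hA _ _
  refine Eq.mp (congrArg (SH 1) ?_) h1
  ext w
  simp only [Set.mem_iUnion, exists_prop, Set.mem_setOf_eq]
  rw [DFA.mem_accepts]
  constructor
  · rintro ⟨q, hq, rfl⟩; exact hq
  · intro h; exact ⟨_, h, rfl⟩

theorem one_map {α H : Type} [Finite α] [Group H] [Finite H] (f : α → H)
    (h : DividesProduct H ∨ H697.ClassTwoByTwo H ∨ ∃ (A : Subgroup H) (g : H), A.Normal ∧
      (∀ a ∈ A, ∀ b ∈ A, a * b = b * a) ∧ ∀ x, f x ∈ A ∨ g⁻¹ * f x ∈ A ∨ g * f x ∈ A) :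
    MapLe 1 f := by
  intro S
  rcases h with h | h | h
  · have h1 : SH 1 (⋃ g : H, ⋃ _ : g ∈ S, {w : List α | (w.map f).prod = g}) :=
      SH.iUnion fun g => SH.iUnion_prop fun _ => H211.div_known h f g
    refine Eq.mp (congrArg (SH 1) ?_) h1
    ext w
    simp
  · have h1 : SH 1 (⋃ g : H, ⋃ _ : g ∈ S, {w : List α | (w.map f).prod = g}) :=
      SH.iUnion fun g => SH.iUnion_prop fun _ => H697.class_two_known h f g
    refine Eq.mp (congrArg (SH 1) ?_) h1
    ext w
    simp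
  · have h1 : SH 1 (⋃ g : H, ⋃ _ : g ∈ S, {w : List α | (w.map f).prod = g}) :=
      SH.iUnion fun g => SH.iUnion_prop fun _ => H211.step_known h g
    refine Eq.mp (congrArg (SH 1) ?_) h1
    ext w
    simp

/-- closure, final form -/
theorem closure {α ι κ θ : Type} [Finite α] [Finite ι] [Finite κ] [Finite θ] (X : ι → Type)
    [∀ i, Finite (X i)] (δ : ∀ i, X i → α → X i)
    (hδ : ∀ i (q : X i), SmallOrValued (δ i)
        {r : X i | (∃ u : List α, u.foldl (δ i) q = r) ∧ ∃ v : List α, v.foldl (δ i) r = q})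
    (H : κ → Type) [∀ k, Group (H k)] [∀ k, Finite (H k)] (F : α → ∀ k, H k)
    (hH : ∀ k, DividesProduct (H k) ∨ H697.ClassTwoByTwo (H k) ∨
      ∃ (A : Subgroup (H k)) (g : H k), A.Normal ∧ (∀ a ∈ A, ∀ b ∈ A, a * b = b * a) ∧
        ∀ x, F x k ∈ A ∨ g⁻¹ * F x k ∈ A ∨ g * F x k ∈ A)
    (K : θ → Type) [∀ j, Group (K j)] (n : θ → ℕ) (hn : ∀ j, H559.CtxClass (n j) (K j))
    (c : θ → ℕ) (ψ : ∀ j, ZMod (n j) → List α → α → K j)
    (M : Type) [Monoid M] [Finite M] (φ : α → M)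
    (hφ : ∀ v : List α, v ≠ [] → (v.map F).prod = 1 →
      (∀ i x, v.foldl (δ i) (v.foldl (δ i) x) = v.foldl (δ i) x) →
      (∀ j, n j ∣ v.length ∧ c j ≤ v.length ∧ ∀ u : List α,
        ctxProdN (n j) (c j) (ψ j) (u ++ v ++ v) = ctxProdN (n j) (c j) (ψ j) (u ++ v)) →
        ∃ k, (v.map φ).prod ^ (k + 1) = (v.map φ).prod ^ k) : MapLe 1 φ := by
  haveI : ∀ j, Finite (K j) := fun j => (H559.class_known (hn j)).2.1
  refine over_all X δ (fun i x y => ?_) H F (fun k => one_map _ (hH k)) K n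
    (fun j => (H559.class_known (hn j)).1) (fun j => (H559.class_known (hn j)).2.2.1)
    (fun j => (H559.class_known (hn j)).2.2.2) c ψ M φ
    (fun v hv hid h2 h3 => hφ v hv (mul_eq_left.1 hid) h2 h3)
  exact basic_sh (hδ i) x y

end Vale.Agent.P329.H954
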