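import Vale.Agent.P329.H954.Kvar
import Vale.Agent.P329.H954.Defs2

/-!
# P329: components in which periodic words have as many values as their last `c` letters
-/

set_option linter.all false

namespace Vale.Agent.P329.H954.Del.Var

open Vale.Agent.P329 Vale.Agent.P329.H112 Vale.Agent.P329.H647 Vale.Agent.P329.H96
  Vale.Agent.P329.H550

variable {α X : Type} {δ : X → α → X}

theorem suf (v : List α) (c : ℕ) : (v.reverse.take c).reverse = v.drop (v.length - c) := by
  rw [List.take_reverse, List.reverse_reverse]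

theorem comp_k [Finite α] [Finite X] (p z : X) (hz : z ∈ Cmp δ p)
    (h : Valued δ (Cmp δ p)) : SH 1 {w : List α | w.foldl δ p = z} := by
  classical
  have hpp : p ∈ Cmp δ p := ⟨Rch.refl δ p, Rch.refl δ p⟩
  obtain ⟨c, h1⟩ := h
  have hsink : Sink (dC δ (Cmp δ p)) := fun a => rfl
  set I := IdOn δ (Cmp δ p) with hI
  have hcard : ∀ v : List α, (J (dC δ (Cmp δ p)) v).ncard = (Val δ (Cmp δ p) v).ncard :=
    fun v => J_card p v
  -- translation of nontrivial cycles
  have hcyc : ∀ v : List α, Cyc (cutI (dC δ (Cmp δ p)) I) v → (∀ a ∈ v, ¬ I a) ∧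
      ∃ x ∈ Cmp δ p, ∃ n : ℕ, 0 < n ∧ (fun s => v.foldl δ s)^[n] x = x ∧ v.foldl δ x ≠ x := by
    rintro v ⟨x, hx, n, hn, hc, hne⟩
    have hv : ∀ a ∈ v, ¬ I a := by
      refine cutI_mem hsink I v x fun h6 => ?_
      obtain ⟨m, rfl⟩ : ∃ m, n = m + 1 := ⟨n - 1, by omega⟩
      have hnone : ∀ i, (fun s => v.foldl (cutI (dC δ (Cmp δ p)) I) s)^[i] none = none := by
        intro i
        induction i with
        | zero => rfl
        | succ i ih =>
          rw [Function.iterate_succ_apply', ih]; exact (cutI_sink hsink I).foldl v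
      rw [Function.iterate_succ_apply, h6, hnone] at hc
      exact hx hc.symm
    refine ⟨hv, ?_⟩
    have e : (fun s => v.foldl (cutI (dC δ (Cmp δ p)) I) s) =
        fun s => v.foldl (dC δ (Cmp δ p)) s := funext fun s => cutI_run I v hv s
    rw [e] at hc
    rw [cutI_run I v hv] at hne
    cases x with
    | none => exact absurd rfl hx
    | some y =>
      refine ⟨y, y.2, n, hn, iter_dC p v n y y hc, fun h6 => hne ?_⟩
      exact (dC_run p v y y).2 h6
  have hsufI : ∀ (v : List α), (∀ a ∈ v, ¬ I a) → ∀ a ∈ v.drop (v.length - c), ¬ I a :=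
    fun v hv a ha => hv a (List.mem_of_mem_drop ha)
  have hF : ∀ v : List α, (∀ a ∈ v, ¬ I a) →
      F (cutI (dC δ (Cmp δ p)) I) (v.reverse.take c) =
        J (dC δ (Cmp δ p)) (v.drop (v.length - c)) := by
    intro v hv
    change J (cutI (dC δ (Cmp δ p)) I) (v.reverse.take c).reverse = _
    rw [suf]
    exact cutI_J I _ (hsufI v hv)
  have h4 : ∀ v : List α, c ≤ v.length → Cyc (cutI (dC δ (Cmp δ p)) I) v →
      (F (cutI (dC δ (Cmp δ p)) I) (v.reverse.take c)).ncard ≤
        (J (cutI (dC δ (Cmp δ p)) I) v).ncard := by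
    intro v hl hc
    obtain ⟨hv, h5⟩ := hcyc v hc
    rw [hF v hv, cutI_J I v hv, hcard, hcard]
    exact (h1 v hl hv h5).1
  have h6 : ∀ v : List α, c ≤ v.length → Cyc (cutI (dC δ (Cmp δ p)) I) v →
      H434.CtxK 1 (Kg (cutI (dC δ (Cmp δ p)) I) (v.reverse.take c)) := by
    intro v hl hc
    obtain ⟨hv, h5⟩ := hcyc v hc
    obtain ⟨h5a, h5b⟩ := h1 v hl hv h5
    by_cases hk : (Val δ (Cmp δ p) v).ncard ≤ 3
    · exact ctxK_sub (by
        change (F (cutI (dC δ (Cmp δ p)) I) (v.reverse.take c)).ncard ≤ 3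
        rw [hF v hv, hcard]
        exact h5a.trans hk) _
    · have h7 := h5b.resolve_left hk
      generalize hrdef : v.reverse.take c = r
      have hrv : r.reverse = v.drop (v.length - c) := by rw [← hrdef, suf]
      have hvr : ∀ b ∈ r.reverse, ¬ I b := by rw [hrv]; exact hsufI v hv
      rw [← hrv] at h7
      have hJr : F (cutI (dC δ (Cmp δ p)) I) r = J (dC δ (Cmp δ p)) r.reverse :=
        cutI_J I r.reverse hvr
      have hmem : ∀ z : Val δ (Cmp δ p) r.reverse, (some ⟨z.1, z.2.1⟩ : Option (Cmp δ p)) ∈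
          F (cutI (dC δ (Cmp δ p)) I) r := by
        rintro ⟨z, hz, x, hx, hxz⟩
        rw [hJr]
        exact ⟨by simp, some ⟨x, hx⟩, (dC_run p r.reverse ⟨x, hx⟩ ⟨z, hz⟩).2 hxz⟩
      let g : Val δ (Cmp δ p) r.reverse → F (cutI (dC δ (Cmp δ p)) I) r := fun z => ⟨_, hmem z⟩
      have hg : Function.Bijective g := by
        constructor
        · intro x y hxy
          have h8 : (some ⟨x.1, x.2.1⟩ : Option (Cmp δ p)) = some ⟨y.1, y.2.1⟩ :=
            congrArg Subtype.val hxy
          have h9 : (⟨x.1, x.2.1⟩ : Cmp δ p) = ⟨y.1, y.2.1⟩ := Option.some.inj h8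
          have h10 : (x.1 : X) = y.1 := congrArg (fun z : Cmp δ p => (z : X)) h9
          exact Subtype.ext h10
        · rintro ⟨s, hs⟩
          have hs' := hs
          rw [hJr, J_eq] at hs'
          obtain ⟨z, ⟨x, hx, hxz⟩, rfl⟩ := hs'
          exact ⟨⟨z, z.2, x, hx, hxz⟩, rfl⟩
      have hne : (F (cutI (dC δ (Cmp δ p)) I) r).Nonempty := by
        have h8 := J_last (D := cutI (dC δ (Cmp δ p)) I) v c
        rw [hrdef] at h8
        obtain ⟨x, hx, n, hn, hc1, hc2⟩ := hc
        refine ⟨x, h8 ?_⟩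
        obtain ⟨m, rfl⟩ : ∃ m, n = m + 1 := ⟨n - 1, by omega⟩
        refine ⟨hx, (fun s => v.foldl (cutI (dC δ (Cmp δ p)) I) s)^[m] x, ?_⟩
        rw [Function.iterate_succ_apply'] at hc1
        exact hc1
      obtain ⟨s0, hs0⟩ := hne
      refine ctxK_transport (Equiv.ofBijective g hg) _ _ ?_ (H559.class_known h7).2.2.2
      rintro π ⟨u, hu⟩
      have hu' : ∀ b ∈ u, ¬ I b := by
        refine cutI_mem hsink I u s0 ?_
        rw [hu ⟨s0, hs0⟩]
        exact (π ⟨s0, hs0⟩).2.1
      refine ⟨u, hu', fun z => ?_⟩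
      have h8 := hu (g z)
      rw [cutI_run I u hu'] at h8
      change u.foldl (dC δ (Cmp δ p)) (some ⟨z.1, z.2.1⟩) = _ at h8
      have h9 : (π (g z) : Option (Cmp δ p)) =
          some ⟨((Equiv.ofBijective g hg).symm (π (g z))).1,
            ((Equiv.ofBijective g hg).symm (π (g z))).2.1⟩ := by
        have h10 := (Equiv.ofBijective g hg).apply_symm_apply (π (g z))
        exact (congrArg Subtype.val h10).symm
      rw [h9, dC_run] at h8
      exact h8
  refine Eq.mp (congrArg (SH 1) ?_) (id_sh hsink I (by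
      intro a ha x
      cases x with
      | none => exact Or.inl rfl
      | some x =>
        change (if h : δ x a ∈ Cmp δ p then some ⟨δ x a, h⟩ else none) = some x ∨
          (if h : δ x a ∈ Cmp δ p then some (⟨δ x a, h⟩ : Cmp δ p) else none) = none
        by_cases h4 : δ x a ∈ Cmp δ p
        · left
          rw [dif_pos h4]
          congr 1
          exact Subtype.ext (ha x x.2 h4)
        · right
          rw [dif_neg h4])
    (k_sh (cutI_sink hsink I) h4 h6) (some ⟨p, hpp⟩) (some ⟨z, hz⟩))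
  ext w
  exact dC_run p w ⟨p, hpp⟩ ⟨z, hz⟩

theorem basic_sh [Finite α] [Finite X] (h : ∀ p, SmallOrValued δ (Cmp δ p)) (p q : X) :
    SH 1 {w : List α | w.foldl δ p = q} := by
  refine scc_sh δ (fun p z hz => ?_) _ p q le_rfl
  rcases h p with h | h | h
  · exact comp_sh δ 0 p z hz h
  · exact four_comp δ p z hz h
  · exact comp_k p z hz h

end Vale.Agent.P329.H954.Del.Var
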