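import Vale.Agent.P329.H954.Comp
import Vale.Agent.P329.H954.Over
import Vale.Agent.P329.H954.Defs
import Vale.Agent.P329.H559.Win

/-!
# P329: automata whose letters have at most `k` values

Each word with a nontrivial cycle has `k` values, and the groups of permutations induced by the
words on the values of the letters have known context products.
-/

set_option linter.all false

namespace Vale.Agent.P329.H954

open Vale.Agent.P329 Vale.Agent.P329.H112 Vale.Agent.P329.H647 Vale.Agent.P329.H96
  Vale.Agent.P329.H550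

section

variable {α Y : Type} {D : Option Y → α → Option Y}

/-- nontrivial cycles need `k` values -/
def Xk (D : Option Y → α → Option Y) (k : ℕ) : Prop := ∀ (v : List α) (x : Option Y) (n : ℕ),
  x ≠ none → 0 < n → (fun s => v.foldl D s)^[n] x = x → v.foldl D x ≠ x → k ≤ (J D v).ncard

/-- in the presence of a cycle the word permutes the values of its last letter -/
theorem perm_of_cyck [Finite Y] {k : ℕ} (hD : Sink D) (h3 : ∀ a, (J D [a]).ncard ≤ k)
    (h2 : Xk D k) (v : List α) (hv : v ≠ [])
    (x : Option Y) (hx : x ≠ none) (n : ℕ) (hn : 0 < n)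
    (hc : (fun s => v.foldl D s)^[n] x = x) (hne : v.foldl D x ≠ x) :
    k ≤ (J D v).ncard ∧ (∀ s ∈ J D v, v.foldl D s ≠ none) ∧
      Set.InjOn (fun s => v.foldl D s) (J D v) := by
  have hnone : ∀ i, (fun s => v.foldl D s)^[i] none = none := by
    intro i
    induction i with
    | zero => rfl
    | succ i ih => rw [Function.iterate_succ_apply', ih]; exact hD.foldl v
  have hpw : ∀ (i : ℕ) (s : Option Y), (pw i v).foldl D s = (fun s => v.foldl D s)^[i] s := by
    intro i
    induction i with
    | zero => intro s; rfl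
    | succ i ih =>
      intro s
      rw [pw_succ, List.foldl_append, ih, Function.iterate_succ_apply]
  have h4 := h2 v x n hx hn hc hne
  have hmul : ∀ i, (fun s => v.foldl D s)^[n * i] x = x := by
    intro i
    induction i with
    | zero => rfl
    | succ i ih => rw [Nat.mul_succ, Function.iterate_add_apply, hc, ih]
  have h5 : k ≤ (J D (pw (n + 1) v)).ncard := by
    refine h2 _ x n hx hn ?_ ?_
    · have e : (fun s => (pw (n + 1) v).foldl D s) = (fun s => v.foldl D s)^[n + 1] :=
        funext fun s => hpw _ s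
      rw [e, ← Function.iterate_mul, Nat.mul_comm]
      exact hmul (n + 1)
    · rw [hpw, Function.iterate_succ_apply', hc]
      exact hne
  have h6 : J D (pw (n + 1) v) ⊆ ((fun s => v.foldl D s)^[n]) '' (J D v) := by
    rintro s ⟨hs, r, hr⟩
    rw [hpw, Function.iterate_succ_apply] at hr
    refine ⟨v.foldl D r, ⟨?_, r, rfl⟩, hr⟩
    intro h7
    change (fun s => v.foldl D s)^[n] (v.foldl D r) = s at hr
    rw [h7, hnone] at hr
    exact hs hr.symm
  have h7 : (J D v).ncard ≤ k := by
    obtain ⟨u, a, rfl⟩ := List.eq_nil_or_concat' v |>.resolve_left hv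
    exact (Set.ncard_le_ncard (J_snoc u a) (Set.toFinite _)).trans (h3 a)
  have h8 : (((fun s => v.foldl D s)^[n]) '' (J D v)).ncard = (J D v).ncard := by
    apply le_antisymm (Set.ncard_image_le (Set.toFinite _))
    have := Set.ncard_le_ncard h6 (Set.toFinite _)
    omega
  have h9 := Set.injOn_of_ncard_image_eq h8 (Set.toFinite _)
  have hinj : Set.InjOn (fun s => v.foldl D s) (J D v) := by
    obtain ⟨m, rfl⟩ : ∃ m, n = m + 1 := ⟨n - 1, by omega⟩
    intro s hs t ht hst
    apply h9 hs ht
    rw [Function.iterate_succ_apply, Function.iterate_succ_apply]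
    exact congrArg _ hst
  have h10 : J D (pw (n + 1) v) = ((fun s => v.foldl D s)^[n]) '' (J D v) :=
    Set.eq_of_subset_of_ncard_le h6 (by omega) (Set.toFinite _)
  refine ⟨h4, ?_, hinj⟩
  intro s hs h11
  have h12 : (fun s => v.foldl D s)^[n] s ∈ J D (pw (n + 1) v) := by
    rw [h10]; exact ⟨s, hs, rfl⟩
  obtain ⟨m, rfl⟩ : ∃ m, n = m + 1 := ⟨n - 1, by omega⟩
  rw [Function.iterate_succ_apply, h11, hnone] at h12
  exact h12.1 rfl

/-- the word `u` induces the bijection `f` -/
def Ind (D : Option Y → α → Option Y) {A B : Set (Option Y)} (u : List α) (f : A ≃ B) : Prop :=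
  ∀ z : A, u.foldl D z = f z

theorem Ind.trans {A B C : Set (Option Y)} {u v : List α} {f : A ≃ B} {g : B ≃ C}
    (hf : Ind D u f) (hg : Ind D v g) : Ind D (u ++ v) (f.trans g) := by
  intro z
  rw [List.foldl_append, hf z]
  exact hg (f z)

theorem exists_ind [Finite Y] {A B : Set (Option Y)} (u : List α)
    (h1 : ∀ z ∈ A, u.foldl D z ∈ B) (h2 : Set.InjOn (fun s => u.foldl D s) A)
    (h3 : B.ncard ≤ A.ncard) : ∃ f : A ≃ B, Ind D u f := by
  let g : A → B := fun z => ⟨u.foldl D z, h1 z z.2⟩
  have hg : Function.Injective g := by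
    intro x y hxy
    exact Subtype.ext (h2 x.2 y.2 (congrArg Subtype.val hxy))
  have hb : Function.Bijective g := by
    refine (Nat.bijective_iff_injective_and_card g).2 ⟨hg, ?_⟩
    exact le_antisymm (Nat.card_le_card_of_injective g hg) h3
  exact ⟨Equiv.ofBijective g hb, fun z => rfl⟩

/-- the group of permutations of the values of `r` induced by words -/
def Kg (D : Option Y → α → Option Y) (r : α) : Subgroup (Equiv.Perm (J D [r])) :=
  Subgroup.closure {π | ∃ u : List α, Ind D u π}

/-- words lead from the values of `r` to the values of `a` and back -/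
def Conn (D : Option Y → α → Option Y) (r a : α) : Prop :=
  (∃ (u : List α) (f : J D [r] ≃ J D [a]), Ind D u f) ∧
    ∃ (u : List α) (f : J D [a] ≃ J D [r]), Ind D u f

/-- transport -/
noncomputable def ta {r a : α} (h : Conn D r a) : J D [r] ≃ J D [a] := h.1.choose_spec.choose

theorem ta_ind {r a : α} (h : Conn D r a) : ∃ u, Ind D u (ta h) :=
  ⟨_, h.1.choose_spec.choose_spec⟩

theorem loop_mem {r a b : α} (ha : Conn D r a) (hb : Conn D r b) {g : J D [a] ≃ J D [b]}
    (hg : ∃ u, Ind D u g) :
    (((ta ha).trans g).trans (ta hb).symm : Equiv.Perm (J D [r])) ∈ Kg D r := by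
  obtain ⟨u, hu⟩ := hg
  obtain ⟨w, hw⟩ := ta_ind ha
  obtain ⟨w', hw'⟩ := ta_ind hb
  obtain ⟨t, f, hf⟩ := hb.2
  have h1 : (((ta ha).trans g).trans f : Equiv.Perm (J D [r])) ∈ Kg D r :=
    Subgroup.subset_closure ⟨_, (hw.trans hu).trans hf⟩
  have h2 : ((ta hb).trans f : Equiv.Perm (J D [r])) ∈ Kg D r :=
    Subgroup.subset_closure ⟨_, hw'.trans hf⟩
  have h3 : (((ta ha).trans g).trans (ta hb).symm : Equiv.Perm (J D [r])) =
      ((ta hb).trans f : Equiv.Perm (J D [r]))⁻¹ * (((ta ha).trans g).trans f) := by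
    apply Equiv.ext
    intro z
    change (ta hb).symm (g (ta ha z)) = (ta hb).symm (f.symm (f (g (ta ha z))))
    rw [Equiv.symm_apply_apply]
  rw [h3]
  exact (Kg D r).mul_mem ((Kg D r).inv_mem h2) h1

open Classical in
/-- window values -/
noncomputable def wk (D : Option Y → α → Option Y) (r a b : α) : Kg D r :=
  if h : (∃ (_ : Conn D r a) (_ : Conn D r b), ∃ g : J D [a] ≃ J D [b], Ind D [b] g) then
    ⟨((ta h.choose).trans h.choose_spec.choose_spec.choose).trans (ta h.choose_spec.choose).symm,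
      loop_mem _ _ ⟨_, h.choose_spec.choose_spec.choose_spec⟩⟩⁻¹ else 1

theorem wk_spec {r a b : α} (ha : Conn D r a) (hb : Conn D r b)
    (h : ∃ g : J D [a] ≃ J D [b], Ind D [b] g) (z : J D [r]) :
    D (ta ha ((wk D r a b : Equiv.Perm (J D [r])) z)) b = ta hb z := by
  have h' : ∃ (_ : Conn D r a) (_ : Conn D r b), ∃ g : J D [a] ≃ J D [b], Ind D [b] g :=
    ⟨ha, hb, h⟩
  have h1 : wk D r a b = ⟨((ta h'.choose).trans h'.choose_spec.choose_spec.choose).trans
      (ta h'.choose_spec.choose).symm,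
      loop_mem _ _ ⟨_, h'.choose_spec.choose_spec.choose_spec⟩⟩⁻¹ := dif_pos h'
  have key : ∀ g : J D [a] ≃ J D [b], Ind D [b] g →
      D (ta ha ((((ta ha).trans g).trans (ta hb).symm).symm z)) b = ta hb z := by
    intro g h2
    have h3 := h2 (ta ha ((((ta ha).trans g).trans (ta hb).symm).symm z))
    rw [List.foldl_cons, List.foldl_nil] at h3
    rw [h3]
    congr 1
    change g (ta ha ((ta ha).symm (g.symm (ta hb z)))) = ta hb z
    rw [Equiv.apply_symm_apply, Equiv.apply_symm_apply]
  rw [h1]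
  exact key _ h'.choose_spec.choose_spec.choose_spec

/-- window weights -/
noncomputable def wwk (D : Option Y → α → Option Y) (r : α) :
    ZMod 1 → List α → α → Kg D r :=
  fun _ Z b => match Z with
    | [] => 1
    | a :: _ => wk D r a b

theorem key_runk [Finite Y] {k : ℕ} (hD : Sink D) (h3 : ∀ a, (J D [a]).ncard ≤ k)
    (r : α) (hr : (J D [r]).ncard = k) (v : List α)
    (h4 : ∀ s ∈ J D [r], v.foldl D s ∈ J D [r])
    (h5 : Set.InjOn (fun s => v.foldl D s) (J D [r])) (h0 : Conn D r r) (u : List α) :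
    ∀ u' : List α, v = u ++ u' →
    ∃ b, (r :: u).getLast? = some b ∧
      (u.foldl (H434.cstepN (wwk D r))
        ((0, ⟨[r], le_rfl⟩, 1) : H434.CSN α (Kg D r) 1 1)).2.1.1 = [b] ∧
      (∃ f : J D [r] ≃ J D [b], Ind D u f) ∧ (∃ f : J D [b] ≃ J D [r], Ind D u' f) ∧
      ∀ hb : Conn D r b, ∀ z, u.foldl D (ta h0 (((u.foldl (H434.cstepN (wwk D r))
        ((0, ⟨[r], le_rfl⟩, 1) : H434.CSN α (Kg D r) 1 1)).2.2 : Equiv.Perm (J D [r])) z)) =
          ta hb z := by
  induction u using List.reverseRecOn with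
  | nil =>
    intro u' hu
    rw [List.nil_append] at hu
    subst hu
    refine ⟨r, rfl, rfl, ⟨Equiv.refl _, fun z => rfl⟩,
      exists_ind v h4 h5 le_rfl, fun hb z => rfl⟩
  | append_singleton u b ih =>
    intro u' hu
    obtain ⟨b', g1, g2, ⟨f, hf⟩, ⟨f', hf'⟩, g3⟩ := ih (b :: u') (by rw [hu]; simp)
    set S := u.foldl (H434.cstepN (wwk D r))
      ((0, ⟨[r], le_rfl⟩, 1) : H434.CSN α (Kg D r) 1 1) with hS
    have hcard : (J D [b']).ncard = k := by
      rw [← hr]
      exact (Nat.card_congr f).symm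
    have hnn : ∀ z : J D [b'], D z b ≠ none := by
      intro z hz
      have h6 := hf' z
      rw [List.foldl_cons, hz, hD.foldl] at h6
      exact (f' z).2.1 h6.symm
    obtain ⟨g, hg⟩ : ∃ g : J D [b'] ≃ J D [b], Ind D [b] g := by
      refine exists_ind [b] (fun z hz => ⟨hnn ⟨z, hz⟩, z, rfl⟩) ?_ (by rw [hcard]; exact h3 b)
      intro x hx y hy hxy
      have h6 := hf' ⟨x, hx⟩
      have h7 := hf' ⟨y, hy⟩
      rw [List.foldl_cons] at h6 h7
      have h8 : D x b = D y b := hxy
      change u'.foldl D (D x b) = _ at h6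
      change u'.foldl D (D y b) = _ at h7
      rw [h8, h7] at h6
      have h9 := f'.injective (Subtype.ext h6)
      exact (congrArg Subtype.val h9).symm
    have hback : Ind D u' (g.symm.trans f') := by
      intro z
      have h6 := hf' (g.symm z)
      rw [List.foldl_cons] at h6
      have h7 := hg (g.symm z)
      rw [List.foldl_cons, List.foldl_nil, Equiv.apply_symm_apply] at h7
      rw [h7] at h6
      exact h6
    refine ⟨b, ?_, ?_, ⟨f.trans g, hf.trans hg⟩, ⟨_, hback⟩, ?_⟩
    · rw [← List.cons_append, List.getLast?_append]; rfl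
    · rw [List.foldl_append, List.foldl_cons, List.foldl_nil]
      rfl
    · intro hb z
      have hb' : Conn D r b' := ⟨⟨_, f, hf⟩, ⟨_, f', hf'⟩⟩
      rw [List.foldl_append, List.foldl_append, List.foldl_cons, List.foldl_nil, List.foldl_cons,
        List.foldl_nil]
      change D (u.foldl D (ta h0 (((S.2.2 * wwk D r S.1 S.2.1.1.reverse b : Kg D r) :
        Equiv.Perm (J D [r])) z))) b = ta hb z
      rw [g2]
      change D (u.foldl D (ta h0 ((S.2.2 : Equiv.Perm (J D [r]))
        ((wk D r b' b : Equiv.Perm (J D [r])) z)))) b = ta hb z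
      rw [g3 hb']
      exact wk_spec hb' hb ⟨g, hg⟩ z

/-- **Automata whose letters have at most `k` values.** -/
theorem k_sh [Finite α] [Finite Y] {k : ℕ} (hD : Sink D) (h3 : ∀ a, (J D [a]).ncard ≤ k)
    (h2 : Xk D k) (hG : ∀ r, (J D [r]).ncard = k → H434.CtxK 1 (Kg D r))
    (p q : Option Y) : SH 1 {w : List α | w.foldl D p = q} := by
  classical
  let θ : Type := {r : α // (J D [r]).ncard = k}
  have hfinK : ∀ r, Finite (Kg D r) := by
    intro r
    infer_instance
  have hfin : Finite {Z : List α // Z.length ≤ 1} := (List.finite_length_le α 1).to_subtype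
  obtain ⟨E, s2, hE⟩ := mapLe_sigma (fun r : θ => H434.cstepN (c := 1) (wwk D r.1))
    (fun r x y => H434.cstepN_sh H434.LocK.one (hG r.1 r.2) (wwk D r.1) x y)
  refine H550.sh_of_mapLe D (H162.Str.straubing _ s2 (H550.tr D) fun v hv hid => ?_) p q
  obtain ⟨i, hi⟩ := aper_of (fun s => v.foldl D s) (by
    intro x n hn hc
    by_contra hne
    have hx : x ≠ none := by
      rintro rfl
      exact hne (hD.foldl v)
    obtain ⟨h5, h6, h7⟩ := perm_of_cyck hD h3 h2 v hv x hx n hn hc hne
    obtain ⟨v', a, hva⟩ := List.eq_nil_or_concat' v |>.resolve_left hv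
    have h8 : J D v ⊆ J D [a] := by rw [hva]; exact J_snoc v' a
    have h9 : J D v = J D [a] :=
      Set.eq_of_subset_of_ncard_le h8 ((h3 a).trans h5) (Set.toFinite _)
    have ha : (J D [a]).ncard = k := le_antisymm (h3 a) (by rw [← h9]; exact h5)
    rw [h9] at h6 h7
    have h10 : ∀ s ∈ J D [a], v.foldl D s ∈ J D [a] := by
      intro s hs
      rw [← h9]
      exact ⟨h6 s hs, s, rfl⟩
    have hid' : ∀ s : H434.CSN α (Kg D a) 1 1,
        v.foldl (H434.cstepN (wwk D a)) (v.foldl (H434.cstepN (wwk D a)) s) =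
          v.foldl (H434.cstepN (wwk D a)) s := by
      intro s
      have h4 := congrArg (fun m : Tr (Σ r : θ, H434.CSN α (Kg D r.1) 1 1) =>
        m.f ⟨(⟨a, ha⟩ : θ), s⟩) hid
      simp only [Tr.mul_f, H550.tr_prod] at h4
      rw [hE, hE] at h4
      simpa using h4
    have h0 : Conn D a a := ⟨⟨[], Equiv.refl _, fun z => rfl⟩, ⟨[], Equiv.refl _, fun z => rfl⟩⟩
    obtain ⟨b, g1, g2, -, -, g4⟩ := key_runk hD h3 a ha v h10 h7 h0 v [] (by simp)
    have hba : b = a := by
      have : (a :: v).getLast? = some a := by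
        rw [hva, ← List.cons_append, List.getLast?_append]; rfl
      rw [this] at g1
      exact (Option.some.inj g1).symm
    subst hba
    -- the value of `v` after `b` is trivial
    have hP : (v.foldl (H434.cstepN (wwk D b))
        ((0, ⟨[b], le_rfl⟩, 1) : H434.CSN α (Kg D b) 1 1)).2.2 = 1 := by
      have r1 := hid' ((0, ⟨[b], le_rfl⟩, 1) : H434.CSN α (Kg D b) 1 1)
      have r2 := (H434.cstepN_run (c := 1) (wwk D b)
        ((0, ⟨[b], le_rfl⟩, 1) : H434.CSN α (Kg D b) 1 1) v).2.2
      set T := v.foldl (H434.cstepN (wwk D b))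
        ((0, ⟨[b], le_rfl⟩, 1) : H434.CSN α (Kg D b) 1 1) with hT
      have r3 := (H434.cstepN_run (c := 1) (wwk D b) T v).2.2
      rw [r1] at r3
      have r5 : T.1 = 0 := Subsingleton.elim _ _
      rw [g2, r5] at r3
      change T.2.2 = T.2.2 * H157.hp (fun X b' => wwk D b (0 + (X.length : ZMod 1))
        ((X ++ [b]).take 1).reverse b') v.reverse at r3
      change T.2.2 = 1 * H157.hp (fun X b' => wwk D b (0 + (X.length : ZMod 1))
        ((X ++ [b]).take 1).reverse b') v.reverse at r2
      rw [one_mul] at r2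
      rw [← r2] at r3
      exact (mul_eq_left.mp r3.symm)
    have hxJ : x ∈ J D [b] := by
      rw [← h9]
      obtain ⟨m, rfl⟩ : ∃ m, n = m + 1 := ⟨n - 1, by omega⟩
      refine ⟨hx, (fun s => v.foldl D s)^[m] x, ?_⟩
      rw [Function.iterate_succ_apply'] at hc
      exact hc
    have h11 := g4 h0 ((ta h0).symm ⟨x, hxJ⟩)
    rw [hP] at h11
    change v.foldl D (ta h0 ((ta h0).symm ⟨x, hxJ⟩)) = ta h0 ((ta h0).symm ⟨x, hxJ⟩) at h11
    rw [Equiv.apply_symm_apply] at h11
    exact hne h11)
  refine ⟨i, ?_⟩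
  apply Tr.ext'
  intro s
  have hf : ((v.map (H550.tr D)).prod).f = fun s => v.foldl D s :=
    funext fun s => H550.tr_prod D v s
  rw [Tr.pow_f, Tr.pow_f, hf]
  exact hi s

/-- permutation groups of at most three points -/
theorem ctxK_sub {V : Type} [Finite V] (hV : Nat.card V ≤ 3) (K : Subgroup (Equiv.Perm V)) :
    H434.CtxK 1 K := by
  classical
  have h1 := Fintype.ofFinite V
  obtain ⟨e⟩ : Nonempty (V ↪ Fin 3) := by
    refine Function.Embedding.nonempty_of_card_le ?_
    rw [Fintype.card_fin, ← Nat.card_eq_fintype_card]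
    exact hV
  have h2 : H434.CtxK 1 (Equiv.Perm (Fin 3)) := by
    have := H559.ctxK_fin3 0
    rwa [pow_zero] at this
  have h3 := Equiv.Perm.viaEmbeddingHom_injective e
  exact h2.div (K.map (Equiv.Perm.viaEmbeddingHom e))
    (K.equivMapOfInjective _ h3).symm.toMonoidHom (K.equivMapOfInjective _ h3).symm.surjective

theorem ctxK_transport {V W : Type} [Finite V] (e : V ≃ W) (S : Set (Equiv.Perm V))
    (T : Set (Equiv.Perm W)) (h : ∀ π ∈ T, e.symm.permCongr π ∈ S)
    (hS : H434.CtxK 1 (Subgroup.closure S)) : H434.CtxK 1 (Subgroup.closure T) := by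
  have h0 : Finite W := Finite.of_equiv V e
  let φ : Equiv.Perm V ≃* Equiv.Perm W := e.permCongrHom
  have h1 : Subgroup.closure T ≤ (Subgroup.closure S).map φ.toMonoidHom := by
    rw [Subgroup.closure_le]
    intro π hπ
    refine ⟨e.symm.permCongr π, Subgroup.subset_closure (h π hπ), ?_⟩
    change e.permCongr (e.symm.permCongr π) = π
    ext z
    simp [Equiv.permCongr_apply]
  have h2 : H434.CtxK 1 ((Subgroup.closure S).map φ.toMonoidHom) :=
    hS.equiv ((Subgroup.closure S).equivMapOfInjective φ.toMonoidHom φ.injective)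
  exact h2.div ((Subgroup.closure T).subgroupOf ((Subgroup.closure S).map φ.toMonoidHom))
    (Subgroup.subgroupOfEquivOfLe h1).toMonoidHom (Subgroup.subgroupOfEquivOfLe h1).surjective

end

section comp

variable {α X : Type} {δ : X → α → X}

theorem iter_dC (p : X) (v : List α) (n : ℕ) : ∀ y z : Cmp δ p,
    (fun s => v.foldl (dC δ (Cmp δ p)) s)^[n] (some y) = some z →
      (fun s => v.foldl δ s)^[n] (y : X) = z := by
  have hsink : Sink (dC δ (Cmp δ p)) := fun a => rfl
  have hnone : ∀ i, (fun s => v.foldl (dC δ (Cmp δ p)) s)^[i] none = none := by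
    intro i
    induction i with
    | zero => rfl
    | succ i ih => rw [Function.iterate_succ_apply', ih]; exact hsink.foldl v
  induction n with
  | zero => intro y z h; exact congrArg Subtype.val (Option.some.inj h)
  | succ n ih =>
    intro y z h
    rw [Function.iterate_succ_apply] at h
    rcases h1 : v.foldl (dC δ (Cmp δ p)) (some y) with _ | y'
    · rw [h1, hnone] at h; cases h
    · rw [h1] at h
      rw [Function.iterate_succ_apply, (dC_run p v y y').1 h1]
      exact ih y' z h

/-- **`k`-valued components.** -/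
theorem comp_k [Finite α] [Finite X] (p z : X) (hz : z ∈ Cmp δ p)
    (h : KValued δ (Cmp δ p)) : SH 1 {w : List α | w.foldl δ p = z} := by
  classical
  have hpp : p ∈ Cmp δ p := ⟨Rch.refl δ p, Rch.refl δ p⟩
  obtain ⟨k, h1, h2, h3⟩ := h
  have hsink : Sink (dC δ (Cmp δ p)) := fun a => rfl
  set I := IdOn δ (Cmp δ p) with hI
  have hcard : ∀ v : List α, (J (dC δ (Cmp δ p)) v).ncard = (Val δ (Cmp δ p) v).ncard :=
    fun v => J_card p v
  have h4 : ∀ a, (J (cutI (dC δ (Cmp δ p)) I) [a]).ncard ≤ k := by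
    intro a
    by_cases ha : I a
    · rw [cutI_J' I a ha, Set.ncard_empty]; exact Nat.zero_le _
    · rw [cutI_J I [a] (by intro b hb; rw [List.mem_singleton] at hb; rw [hb]; exact ha), hcard]
      exact (h1 a).resolve_left ha
  have h5 : Xk (cutI (dC δ (Cmp δ p)) I) k := by
    intro v x n hx hn hc hne
    have hv : ∀ a ∈ v, ¬ I a := by
      refine cutI_mem hsink I v x fun h6 => ?_
      obtain ⟨m, rfl⟩ : ∃ m, n = m + 1 := ⟨n - 1, by omega⟩
      have hnone : ∀ i, (fun s => v.foldl (cutI (dC δ (Cmp δ p)) I) s)^[i] none = none := by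
        intro i
        induction i with
        | zero => rfl
        | succ i ih =>
          rw [Function.iterate_succ_apply', ih]; exact (cutI_sink hsink I).foldl v
      rw [Function.iterate_succ_apply, h6, hnone] at hc
      exact hx hc.symm
    rw [cutI_J I v hv, hcard]
    have e : (fun s => v.foldl (cutI (dC δ (Cmp δ p)) I) s) =
        fun s => v.foldl (dC δ (Cmp δ p)) s := funext fun s => cutI_run I v hv s
    rw [e] at hc
    rw [cutI_run I v hv] at hne
    cases x with
    | none => exact absurd rfl hx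
    | some y =>
      refine h2 v hv y y.2 n hn (iter_dC p v n y y hc) fun h6 => hne ?_
      exact (dC_run p v y y).2 h6
  have h6 : ∀ r, (J (cutI (dC δ (Cmp δ p)) I) [r]).ncard = k →
      H434.CtxK 1 (Kg (cutI (dC δ (Cmp δ p)) I) r) := by
    intro r hr
    by_cases hk : k ≤ 3
    · exact ctxK_sub (by
        change (J (cutI (dC δ (Cmp δ p)) I) [r]).ncard ≤ 3
        rw [hr]; exact hk) _
    · have hIr : ¬ I r := by
        intro hIr
        rw [cutI_J' I r hIr, Set.ncard_empty] at hr
        omega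
      have hvr : ∀ b ∈ [r], ¬ I b := by
        intro b hb; rw [List.mem_singleton] at hb; rw [hb]; exact hIr
      have hJr : J (cutI (dC δ (Cmp δ p)) I) [r] = J (dC δ (Cmp δ p)) [r] := cutI_J I [r] hvr
      have h7 := h3.resolve_left hk r hIr (by rw [← hcard, ← hJr]; exact hr)
      have hmem : ∀ z : Val δ (Cmp δ p) [r], (some ⟨z.1, z.2.1⟩ : Option (Cmp δ p)) ∈
          J (cutI (dC δ (Cmp δ p)) I) [r] := by
        rintro ⟨z, hz, x, hx, hxz⟩
        rw [hJr]
        exact ⟨by simp, some ⟨x, hx⟩, (dC_run p [r] ⟨x, hx⟩ ⟨z, hz⟩).2 hxz⟩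
      let g : Val δ (Cmp δ p) [r] → J (cutI (dC δ (Cmp δ p)) I) [r] := fun z => ⟨_, hmem z⟩
      have hg : Function.Bijective g := by
        constructor
        · intro x y hxy
          have h8 : (some ⟨x.1, x.2.1⟩ : Option (Cmp δ p)) = some ⟨y.1, y.2.1⟩ :=
            congrArg Subtype.val hxy
          have h9 : (⟨x.1, x.2.1⟩ : Cmp δ p) = ⟨y.1, y.2.1⟩ := Option.some.inj h8
          have h10 : (x.1 : X) = y.1 := congrArg (fun z : Cmp δ p => (z : X)) h9
          exact Subtype.ext h10
        · rintro ⟨s, hs⟩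
          have hs' := hs
          rw [hJr, J_eq] at hs'
          obtain ⟨z, ⟨x, hx, hxz⟩, rfl⟩ := hs'
          exact ⟨⟨z, z.2, x, hx, hxz⟩, rfl⟩
      have hne : (J (cutI (dC δ (Cmp δ p)) I) [r]).Nonempty := by
        rw [← Set.ncard_pos (Set.toFinite _), hr]; omega
      obtain ⟨s0, hs0⟩ := hne
      refine ctxK_transport (Equiv.ofBijective g hg) _ _ ?_ (H559.class_known h7).2.2.2
      rintro π ⟨u, hu⟩
      have hu' : ∀ b ∈ u, ¬ I b := by
        refine cutI_mem hsink I u s0 ?_
        rw [hu ⟨s0, hs0⟩]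
        exact (π ⟨s0, hs0⟩).2.1
      refine ⟨u, hu', fun z => ?_⟩
      have h8 := hu (g z)
      rw [cutI_run I u hu'] at h8
      change u.foldl (dC δ (Cmp δ p)) (some ⟨z.1, z.2.1⟩) = _ at h8
      have h9 : (π (g z) : Option (Cmp δ p)) =
          some ⟨((Equiv.ofBijective g hg).symm (π (g z))).1,
            ((Equiv.ofBijective g hg).symm (π (g z))).2.1⟩ := by
        have h10 := (Equiv.ofBijective g hg).apply_symm_apply (π (g z))
        exact (congrArg Subtype.val h10).symm
      rw [h9, dC_run] at h8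
      exact h8
  refine Eq.mp (congrArg (SH 1) ?_) (id_sh hsink I (by
      intro a ha x
      cases x with
      | none => exact Or.inl rfl
      | some x =>
        change (if h : δ x a ∈ Cmp δ p then some ⟨δ x a, h⟩ else none) = some x ∨
          (if h : δ x a ∈ Cmp δ p then some (⟨δ x a, h⟩ : Cmp δ p) else none) = none
        by_cases h4 : δ x a ∈ Cmp δ p
        · left
          rw [dif_pos h4]
          congr 1
          exact Subtype.ext (ha x x.2 h4)
        · right
          rw [dif_neg h4])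
    (k_sh (cutI_sink hsink I) h4 h5 h6) (some ⟨p, hpp⟩) (some ⟨z, hz⟩))
  ext w
  exact dC_run p w ⟨p, hpp⟩ ⟨z, hz⟩

end comp

end Vale.Agent.P329.H954
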