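import Vale.Agent.P329.H954.Comp
import Vale.Agent.P329.H954.Over
import Vale.Agent.P329.H954.Kval
import Vale.Agent.P329.H559.Win

/-!
# P329: automata whose words of length `c` have at most `k` values

Each word with a nontrivial cycle has `k` values, and the groups of permutations induced by the
words on the values of the words of length `c` have known context products.
-/

set_option linter.all false

namespace Vale.Agent.P329.H954.Del

open Vale.Agent.P329 Vale.Agent.P329.H112 Vale.Agent.P329.H647 Vale.Agent.P329.H96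
  Vale.Agent.P329.H550

section

variable {α Y : Type} {D : Option Y → α → Option Y}

theorem pw_len (k : ℕ) (z : List α) : (pw k z).length = k * z.length := by
  induction k with
  | zero => rw [pw_zero, List.length_nil, Nat.zero_mul]
  | succ k ih => rw [pw_succ, List.length_append, ih, Nat.succ_mul, Nat.add_comm]

theorem J_app (u v : List α) : J D (u ++ v) ⊆ J D v := by
  rintro s ⟨h1, r, hr⟩
  refine ⟨h1, u.foldl D r, ?_⟩
  rw [List.foldl_append] at hr
  exact hr

theorem J_last (v : List α) (c : ℕ) : J D v ⊆ J D (v.reverse.take c).reverse := by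
  have h1 : v = (v.reverse.drop c).reverse ++ (v.reverse.take c).reverse := by
    rw [← List.reverse_append, List.take_append_drop, List.reverse_reverse]
  conv_lhs => rw [h1]
  exact J_app _ _

/-- in the presence of a cycle a long word permutes its values -/
theorem perm_of_cyck [Finite Y] {k c : ℕ} (hD : Sink D)
    (h3 : ∀ v : List α, v.length = c → (J D v).ncard ≤ k)
    (h2 : Xk D k) (v : List α) (hv : c ≤ v.length)
    (x : Option Y) (hx : x ≠ none) (n : ℕ) (hn : 0 < n)
    (hc : (fun s => v.foldl D s)^[n] x = x) (hne : v.foldl D x ≠ x) :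
    k ≤ (J D v).ncard ∧ (∀ s ∈ J D v, v.foldl D s ≠ none) ∧
      Set.InjOn (fun s => v.foldl D s) (J D v) := by
  have hnone : ∀ i, (fun s => v.foldl D s)^[i] none = none := by
    intro i
    induction i with
    | zero => rfl
    | succ i ih => rw [Function.iterate_succ_apply', ih]; exact hD.foldl v
  have hpw : ∀ (i : ℕ) (s : Option Y), (pw i v).foldl D s = (fun s => v.foldl D s)^[i] s := by
    intro i
    induction i with
    | zero => intro s; rfl
    | succ i ih =>
      intro s
      rw [pw_succ, List.foldl_append, ih, Function.iterate_succ_apply]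
  have h4 := h2 v x n hx hn hc hne
  have hmul : ∀ i, (fun s => v.foldl D s)^[n * i] x = x := by
    intro i
    induction i with
    | zero => rfl
    | succ i ih => rw [Nat.mul_succ, Function.iterate_add_apply, hc, ih]
  have h5 : k ≤ (J D (pw (n + 1) v)).ncard := by
    refine h2 _ x n hx hn ?_ ?_
    · have e : (fun s => (pw (n + 1) v).foldl D s) = (fun s => v.foldl D s)^[n + 1] :=
        funext fun s => hpw _ s
      rw [e, ← Function.iterate_mul, Nat.mul_comm]
      exact hmul (n + 1)
    · rw [hpw, Function.iterate_succ_apply', hc]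
      exact hne
  have h6 : J D (pw (n + 1) v) ⊆ ((fun s => v.foldl D s)^[n]) '' (J D v) := by
    rintro s ⟨hs, r, hr⟩
    rw [hpw, Function.iterate_succ_apply] at hr
    refine ⟨v.foldl D r, ⟨?_, r, rfl⟩, hr⟩
    intro h7
    change (fun s => v.foldl D s)^[n] (v.foldl D r) = s at hr
    rw [h7, hnone] at hr
    exact hs hr.symm
  have h7 : (J D v).ncard ≤ k := by
    refine (Set.ncard_le_ncard (J_last v c) (Set.toFinite _)).trans (h3 _ ?_)
    rw [List.length_reverse, List.length_take, List.length_reverse, Nat.min_eq_left hv]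
  have h8 : (((fun s => v.foldl D s)^[n]) '' (J D v)).ncard = (J D v).ncard := by
    apply le_antisymm (Set.ncard_image_le (Set.toFinite _))
    have := Set.ncard_le_ncard h6 (Set.toFinite _)
    omega
  have h9 := Set.injOn_of_ncard_image_eq h8 (Set.toFinite _)
  have hinj : Set.InjOn (fun s => v.foldl D s) (J D v) := by
    obtain ⟨m, rfl⟩ : ∃ m, n = m + 1 := ⟨n - 1, by omega⟩
    intro s hs t ht hst
    apply h9 hs ht
    rw [Function.iterate_succ_apply, Function.iterate_succ_apply]
    exact congrArg _ hst
  have h10 : J D (pw (n + 1) v) = ((fun s => v.foldl D s)^[n]) '' (J D v) :=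
    Set.eq_of_subset_of_ncard_le h6 (by omega) (Set.toFinite _)
  refine ⟨h4, ?_, hinj⟩
  intro s hs h11
  have h12 : (fun s => v.foldl D s)^[n] s ∈ J D (pw (n + 1) v) := by
    rw [h10]; exact ⟨s, hs, rfl⟩
  obtain ⟨m, rfl⟩ : ∃ m, n = m + 1 := ⟨n - 1, by omega⟩
  rw [Function.iterate_succ_apply, h11, hnone] at h12
  exact h12.1 rfl

/-- values of the word whose reversal is `r` -/
abbrev F (D : Option Y → α → Option Y) (r : List α) : Set (Option Y) := J D r.reverse

/-- the group of permutations of the values of a word induced by words -/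
def Kg (D : Option Y → α → Option Y) (r : List α) : Subgroup (Equiv.Perm (F D r)) :=
  Subgroup.closure {π | ∃ u : List α, Ind D u π}

/-- words lead from the values of `r` to the values of `a` and back -/
def Conn (D : Option Y → α → Option Y) (r a : List α) : Prop :=
  (∃ (u : List α) (f : F D r ≃ F D a), Ind D u f) ∧
    ∃ (u : List α) (f : F D a ≃ F D r), Ind D u f

/-- transport -/
noncomputable def ta {r a : List α} (h : Conn D r a) : F D r ≃ F D a := h.1.choose_spec.choose

theorem ta_ind {r a : List α} (h : Conn D r a) : ∃ u, Ind D u (ta h) :=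
  ⟨_, h.1.choose_spec.choose_spec⟩

theorem loop_mem {r a b : List α} (ha : Conn D r a) (hb : Conn D r b) {g : F D a ≃ F D b}
    (hg : ∃ u, Ind D u g) :
    (((ta ha).trans g).trans (ta hb).symm : Equiv.Perm (F D r)) ∈ Kg D r := by
  obtain ⟨u, hu⟩ := hg
  obtain ⟨w, hw⟩ := ta_ind ha
  obtain ⟨w', hw'⟩ := ta_ind hb
  obtain ⟨t, f, hf⟩ := hb.2
  have h1 : (((ta ha).trans g).trans f : Equiv.Perm (F D r)) ∈ Kg D r :=
    Subgroup.subset_closure ⟨_, (hw.trans hu).trans hf⟩
  have h2 : ((ta hb).trans f : Equiv.Perm (F D r)) ∈ Kg D r :=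
    Subgroup.subset_closure ⟨_, hw'.trans hf⟩
  have h3 : (((ta ha).trans g).trans (ta hb).symm : Equiv.Perm (F D r)) =
      ((ta hb).trans f : Equiv.Perm (F D r))⁻¹ * (((ta ha).trans g).trans f) := by
    apply Equiv.ext
    intro z
    change (ta hb).symm (g (ta ha z)) = (ta hb).symm (f.symm (f (g (ta ha z))))
    rw [Equiv.symm_apply_apply]
  rw [h3]
  exact (Kg D r).mul_mem ((Kg D r).inv_mem h2) h1

open Classical in
/-- window values -/
noncomputable def wk (D : Option Y → α → Option Y) (r a a' : List α) (b : α) : Kg D r :=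
  if h : (∃ (_ : Conn D r a) (_ : Conn D r a'), ∃ g : F D a ≃ F D a', Ind D [b] g) then
    ⟨((ta h.choose).trans h.choose_spec.choose_spec.choose).trans (ta h.choose_spec.choose).symm,
      loop_mem _ _ ⟨_, h.choose_spec.choose_spec.choose_spec⟩⟩⁻¹ else 1

theorem wk_spec {r a a' : List α} {b : α} (ha : Conn D r a) (hb : Conn D r a')
    (h : ∃ g : F D a ≃ F D a', Ind D [b] g) (z : F D r) :
    D (ta ha ((wk D r a a' b : Equiv.Perm (F D r)) z)) b = ta hb z := by
  have h' : ∃ (_ : Conn D r a) (_ : Conn D r a'), ∃ g : F D a ≃ F D a', Ind D [b] g :=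
    ⟨ha, hb, h⟩
  have h1 : wk D r a a' b = ⟨((ta h'.choose).trans h'.choose_spec.choose_spec.choose).trans
      (ta h'.choose_spec.choose).symm,
      loop_mem _ _ ⟨_, h'.choose_spec.choose_spec.choose_spec⟩⟩⁻¹ := dif_pos h'
  have key : ∀ g : F D a ≃ F D a', Ind D [b] g →
      D (ta ha ((((ta ha).trans g).trans (ta hb).symm).symm z)) b = ta hb z := by
    intro g h2
    have h3 := h2 (ta ha ((((ta ha).trans g).trans (ta hb).symm).symm z))
    rw [List.foldl_cons, List.foldl_nil] at h3
    rw [h3]
    congr 1
    change g (ta ha ((ta ha).symm (g.symm (ta hb z)))) = ta hb z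
    rw [Equiv.apply_symm_apply, Equiv.apply_symm_apply]
  rw [h1]
  exact key _ h'.choose_spec.choose_spec.choose_spec

/-- window weights -/
noncomputable def wwk (D : Option Y → α → Option Y) (c : ℕ) (r : List α) :
    ZMod 1 → List α → α → Kg D r :=
  fun _ Z b => wk D r Z.reverse ((b :: Z.reverse).take c) b

/-- initial state -/
def s0 (D : Option Y → α → Option Y) {c : ℕ} {r : List α} (hrc : r.length = c) :
    H434.CSN α (Kg D r) 1 c := (0, ⟨r, hrc.le⟩, 1)

theorem key_runk [Finite Y] {k c : ℕ} (hD : Sink D)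
    (h3 : ∀ v : List α, v.length = c → (J D v).ncard ≤ k)
    (r : List α) (hrc : r.length = c) (hr : (F D r).ncard = k) (v : List α)
    (h4 : ∀ s ∈ F D r, v.foldl D s ∈ F D r)
    (h5 : Set.InjOn (fun s => v.foldl D s) (F D r)) (h0 : Conn D r r) (u : List α) :
    ∀ u' : List α, v = u ++ u' →
    ∃ L : List α, L.length = c ∧
      (u.foldl (H434.cstepN (wwk D c r)) (s0 D hrc)).2.1.1 = L ∧
      (∃ f : F D r ≃ F D L, Ind D u f) ∧ (∃ f : F D L ≃ F D r, Ind D u' f) ∧
      ∀ hb : Conn D r L, ∀ z, u.foldl D (ta h0 (((u.foldl (H434.cstepN (wwk D c r))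
        (s0 D hrc)).2.2 : Equiv.Perm (F D r)) z)) = ta hb z := by
  induction u using List.reverseRecOn with
  | nil =>
    intro u' hu
    rw [List.nil_append] at hu
    subst hu
    exact ⟨r, hrc, rfl, ⟨Equiv.refl _, fun z => rfl⟩,
      exists_ind v h4 h5 le_rfl, fun hb z => rfl⟩
  | append_singleton u b ih =>
    intro u' hu
    obtain ⟨L, g0, g2, ⟨f, hf⟩, ⟨f', hf'⟩, g3⟩ := ih (b :: u') (by rw [hu]; simp)
    set S := u.foldl (H434.cstepN (wwk D c r)) (s0 D hrc) with hS
    have hcard : (F D L).ncard = k := by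
      rw [← hr]
      exact (Nat.card_congr f).symm
    have hnn : ∀ z : F D L, D z b ≠ none := by
      intro z hz
      have h6 := hf' z
      rw [List.foldl_cons, hz, hD.foldl] at h6
      exact (f' z).2.1 h6.symm
    have hlen : ((b :: L).take c).length = c := by
      rw [List.length_take, List.length_cons, g0]; omega
    have hsub : J D (L.reverse ++ [b]) ⊆ F D ((b :: L).take c) := by
      have h6 : L.reverse ++ [b] = (b :: L).reverse := by rw [List.reverse_cons]
      rw [h6]
      have h7 := J_last (D := D) (b :: L).reverse c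
      rw [List.reverse_reverse] at h7
      exact h7
    obtain ⟨g, hg⟩ : ∃ g : F D L ≃ F D ((b :: L).take c), Ind D [b] g := by
      refine exists_ind [b] (fun z hz => hsub ⟨hnn ⟨z, hz⟩, ?_⟩) ?_ (by
        rw [hcard]; exact h3 _ (by rw [List.length_reverse, hlen]))
      · obtain ⟨hz1, t, ht⟩ := hz
        refine ⟨t, ?_⟩
        rw [List.foldl_append, ht]
      · intro x hx y hy hxy
        have h6 := hf' ⟨x, hx⟩
        have h7 := hf' ⟨y, hy⟩
        rw [List.foldl_cons] at h6 h7
        have h8 : D x b = D y b := hxy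
        change u'.foldl D (D x b) = _ at h6
        change u'.foldl D (D y b) = _ at h7
        rw [h8, h7] at h6
        have h9 := f'.injective (Subtype.ext h6)
        exact (congrArg Subtype.val h9).symm
    have hback : Ind D u' (g.symm.trans f') := by
      intro z
      have h6 := hf' (g.symm z)
      rw [List.foldl_cons] at h6
      have h7 := hg (g.symm z)
      rw [List.foldl_cons, List.foldl_nil, Equiv.apply_symm_apply] at h7
      rw [h7] at h6
      exact h6
    refine ⟨(b :: L).take c, hlen, ?_, ⟨f.trans g, hf.trans hg⟩, ⟨_, hback⟩, ?_⟩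
    · rw [List.foldl_append, List.foldl_cons, List.foldl_nil]
      change (b :: S.2.1.1).take c = _
      rw [g2]
    · intro hb z
      have hb' : Conn D r L := ⟨⟨_, f, hf⟩, ⟨_, f', hf'⟩⟩
      rw [List.foldl_append, List.foldl_append, List.foldl_cons, List.foldl_nil, List.foldl_cons,
        List.foldl_nil]
      change D (u.foldl D (ta h0 (((S.2.2 * wwk D c r S.1 S.2.1.1.reverse b : Kg D r) :
        Equiv.Perm (F D r)) z))) b = ta hb z
      have e1 : wwk D c r S.1 S.2.1.1.reverse b = wk D r L ((b :: L).take c) b := by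
        unfold wwk
        rw [List.reverse_reverse, g2]
      rw [e1]
      change D (u.foldl D (ta h0 ((S.2.2 : Equiv.Perm (F D r))
        ((wk D r L ((b :: L).take c) b : Equiv.Perm (F D r)) z)))) b = ta hb z
      rw [g3 hb']
      exact wk_spec hb' hb ⟨g, hg⟩ z

/-- long words -/
theorem k_long [Finite Y] {k c : ℕ} (hD : Sink D)
    (h3 : ∀ v : List α, v.length = c → (J D v).ncard ≤ k) (h2 : Xk D k)
    (v : List α) (hv : c ≤ v.length)
    (hid : ∀ r : List α, ∀ hrc : r.length = c, (F D r).ncard = k →
      v.foldl (H434.cstepN (wwk D c r)) (v.foldl (H434.cstepN (wwk D c r)) (s0 D hrc)) =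
        v.foldl (H434.cstepN (wwk D c r)) (s0 D hrc))
    (x : Option Y) (n : ℕ) (hn : 0 < n) (hc : (fun s => v.foldl D s)^[n] x = x) :
    v.foldl D x = x := by
  by_contra hne
  have hx : x ≠ none := by
    rintro rfl
    exact hne (hD.foldl v)
  obtain ⟨h5, h6, h7⟩ := perm_of_cyck hD h3 h2 v hv x hx n hn hc hne
  have hrc : (v.reverse.take c).length = c := by
    rw [List.length_take, List.length_reverse, Nat.min_eq_left hv]
  have h8 : J D v ⊆ F D (v.reverse.take c) := J_last v c
  have h33 := h3 (v.reverse.take c).reverse (by rw [List.length_reverse, hrc])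
  have h9 : J D v = F D (v.reverse.take c) :=
    Set.eq_of_subset_of_ncard_le h8 (h33.trans h5) (Set.toFinite _)
  have ha : (F D (v.reverse.take c)).ncard = k := le_antisymm h33 (by rw [← h9]; exact h5)
  generalize hrdef : v.reverse.take c = r at hrc h8 h33 h9 ha
  rw [h9] at h6 h7
  have h10 : ∀ s ∈ F D r, v.foldl D s ∈ F D r := by
    intro s hs
    rw [← h9]
    exact ⟨h6 s hs, s, rfl⟩
  have h0 : Conn D r r := ⟨⟨[], Equiv.refl _, fun z => rfl⟩, ⟨[], Equiv.refl _, fun z => rfl⟩⟩
  obtain ⟨b, g1, g2, -, -, g4⟩ := key_runk hD h3 r hrc ha v h10 h7 h0 v [] (by simp)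
  have hba : b = r := by
    have h11 := (H434.cstepN_run (c := c) (wwk D c r) (s0 D hrc) v).2.1
    rw [g2, List.take_append_of_le_length (by rw [List.length_reverse]; exact hv), hrdef] at h11
    exact h11
  subst hba
  -- the value of `v` after `b` is trivial
  have hP : (v.foldl (H434.cstepN (wwk D c b)) (s0 D hrc)).2.2 = 1 := by
    have r1 := hid b hrc ha
    have r2 := (H434.cstepN_run (c := c) (wwk D c b) (s0 D hrc) v).2.2
    set T := v.foldl (H434.cstepN (wwk D c b)) (s0 D hrc) with hT
    have r3 := (H434.cstepN_run (c := c) (wwk D c b) T v).2.2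
    rw [r1] at r3
    have r5 : T.1 = 0 := Subsingleton.elim _ _
    rw [g2, r5] at r3
    change T.2.2 = 1 * H157.hp (fun X b' => wwk D c b (0 + (X.length : ZMod 1))
      ((X ++ b).take c).reverse b') v.reverse at r2
    rw [one_mul] at r2
    rw [← r2] at r3
    exact (mul_eq_left.mp r3.symm)
  have hxJ : x ∈ F D b := by
    rw [← h9]
    obtain ⟨m, rfl⟩ : ∃ m, n = m + 1 := ⟨n - 1, by omega⟩
    refine ⟨hx, (fun s => v.foldl D s)^[m] x, ?_⟩
    rw [Function.iterate_succ_apply'] at hc
    exact hc
  have h11 := g4 h0 ((ta h0).symm ⟨x, hxJ⟩)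
  rw [hP] at h11
  change v.foldl D (ta h0 ((ta h0).symm ⟨x, hxJ⟩)) = ta h0 ((ta h0).symm ⟨x, hxJ⟩) at h11
  rw [Equiv.apply_symm_apply] at h11
  exact hne h11

/-- **Automata whose words of length `c` have at most `k` values.** -/
theorem k_sh [Finite α] [Finite Y] {k c : ℕ} (hD : Sink D)
    (h3 : ∀ v : List α, v.length = c → (J D v).ncard ≤ k)
    (h2 : Xk D k) (hG : ∀ r : List α, r.length = c → (F D r).ncard = k → H434.CtxK 1 (Kg D r))
    (p q : Option Y) : SH 1 {w : List α | w.foldl D p = q} := by
  classical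
  let θ : Type := {r : List α // r.length = c ∧ (F D r).ncard = k}
  haveI : Finite {r : List α // r.length = c} := (List.finite_length_eq α c).to_subtype
  haveI : Finite θ := by
    refine Finite.of_injective (β := {r : List α // r.length = c}) (fun r => ⟨r.1, r.2.1⟩) ?_
    intro x y hxy
    exact Subtype.ext (congrArg (fun z : {r : List α // r.length = c} => z.1) hxy)
  have hfinK : ∀ r, Finite (Kg D r) := by
    intro r
    infer_instance
  have hfin : Finite {Z : List α // Z.length ≤ c} := (List.finite_length_le α c).to_subtype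
  obtain ⟨E, s2, hE⟩ := mapLe_sigma (fun r : θ => H434.cstepN (c := c) (wwk D c r.1))
    (fun r x y => H434.cstepN_sh H434.LocK.one (hG r.1 r.2.1 r.2.2) (wwk D c r.1) x y)
  refine H550.sh_of_mapLe D (H162.Str.straubing _ s2 (H550.tr D) fun v hv hid => ?_) p q
  have hid' : ∀ (r : List α) (hrc : r.length = c) (hr : (F D r).ncard = k)
      (s : H434.CSN α (Kg D r) 1 c),
      v.foldl (H434.cstepN (wwk D c r)) (v.foldl (H434.cstepN (wwk D c r)) s) =
        v.foldl (H434.cstepN (wwk D c r)) s := by
    intro r hrc hr s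
    have h4 := congrArg (fun m : Tr (Σ r : θ, H434.CSN α (Kg D r.1) 1 c) =>
      m.f ⟨(⟨r, hrc, hr⟩ : θ), s⟩) hid
    simp only [Tr.mul_f, H550.tr_prod] at h4
    rw [hE, hE] at h4
    simpa using h4
  have hpwid : ∀ (r : List α) (hrc : r.length = c) (hr : (F D r).ncard = k) (m : ℕ)
      (s : H434.CSN α (Kg D r) 1 c),
      (pw (m + 1) v).foldl (H434.cstepN (wwk D c r)) s = v.foldl (H434.cstepN (wwk D c r)) s := by
    intro r hrc hr m
    induction m with
    | zero => intro s; rw [pw_succ, pw_zero, List.append_nil]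
    | succ m ih => intro s; rw [pw_succ, List.foldl_append, ih, hid' r hrc hr]
  have hpwD : ∀ (i : ℕ) (s : Option Y), (pw i v).foldl D s = (fun s => v.foldl D s)^[i] s := by
    intro i
    induction i with
    | zero => intro s; rfl
    | succ i ih =>
      intro s
      rw [pw_succ, List.foldl_append, ih, Function.iterate_succ_apply]
  obtain ⟨i, hi⟩ := aper_of (fun s => v.foldl D s) (by
    intro x n hn hc
    have hmul : ∀ i, (fun s => v.foldl D s)^[n * i] x = x := by
      intro i
      induction i with
      | zero => rfl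
      | succ i ih => rw [Nat.mul_succ, Function.iterate_add_apply, hc, ih]
    have e0 : (pw (n * c + 1) v).foldl D x = v.foldl D x := by
      rw [hpwD, Function.iterate_succ_apply', hmul]
    have e1 := k_long hD h3 h2 (pw (n * c + 1) v) (by
        rw [pw_len]
        have h1 : 0 < v.length := List.length_pos_of_ne_nil hv
        calc c = 1 * c * 1 := by ring
          _ ≤ (n * c + 1) * v.length := by
            apply Nat.mul_le_mul _ h1
            have : 1 * c ≤ n * c := Nat.mul_le_mul_right c hn
            omega)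
      (fun r hrc hr => by rw [hpwid r hrc hr, hpwid r hrc hr, hid' r hrc hr])
      x n hn (by
        have e : (fun s => (pw (n * c + 1) v).foldl D s) =
            (fun s => v.foldl D s)^[n * c + 1] := funext fun s => hpwD _ s
        rw [e, ← Function.iterate_mul, Nat.mul_comm]
        exact hmul (n * c + 1))
    rw [e0] at e1
    exact e1)
  refine ⟨i, ?_⟩
  apply Tr.ext'
  intro s
  have hf : ((v.map (H550.tr D)).prod).f = fun s => v.foldl D s :=
    funext fun s => H550.tr_prod D v s
  rw [Tr.pow_f, Tr.pow_f, hf]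
  exact hi s

end

end Vale.Agent.P329.H954.Del
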