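import Vale.Agent.P329.H954.Kdel

/-!
# P329: automata in which the number of values of a periodic word depends on its last `c` letters
-/

set_option linter.all false

namespace Vale.Agent.P329.H954.Del.Var

open Vale.Agent.P329 Vale.Agent.P329.H112 Vale.Agent.P329.H647 Vale.Agent.P329.H96
  Vale.Agent.P329.H550

variable {α Y : Type} {D : Option Y → α → Option Y}

/-- `v` has a nontrivial cycle -/
def Cyc (D : Option Y → α → Option Y) (v : List α) : Prop :=
  ∃ x : Option Y, x ≠ none ∧ ∃ n : ℕ, 0 < n ∧ (fun s => v.foldl D s)^[n] x = x ∧ v.foldl D x ≠ x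

theorem pwD (v : List α) : ∀ (i : ℕ) (s : Option Y),
    (pw i v).foldl D s = (fun s => v.foldl D s)^[i] s := by
  intro i
  induction i with
  | zero => intro s; rfl
  | succ i ih =>
    intro s
    rw [pw_succ, List.foldl_append, ih, Function.iterate_succ_apply]

theorem J_img (hD : Sink D) (a w : List α) :
    J D (a ++ w) ⊆ (fun s => w.foldl D s) '' (J D a) := by
  rintro s ⟨h1, t, h2⟩
  rw [List.foldl_append] at h2
  refine ⟨a.foldl D t, ⟨?_, t, rfl⟩, h2⟩
  intro h3
  rw [h3, hD.foldl] at h2
  exact h1 h2.symm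

theorem mulx (v : List α) (x : Option Y) (n : ℕ) (hc : (fun s => v.foldl D s)^[n] x = x) :
    ∀ i, (fun s => v.foldl D s)^[n * i] x = x := by
  intro i
  induction i with
  | zero => rfl
  | succ i ih => rw [Nat.mul_succ, Function.iterate_add_apply, hc, ih]

theorem cyc_pw {v : List α} {x : Option Y} {n : ℕ} (hx : x ≠ none) (hn : 0 < n)
    (hc : (fun s => v.foldl D s)^[n] x = x) (hne : v.foldl D x ≠ x) : Cyc D (pw (n + 1) v) := by
  refine ⟨x, hx, n, hn, ?_, ?_⟩
  · have e : (fun s => (pw (n + 1) v).foldl D s) = (fun s => v.foldl D s)^[n + 1] :=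
      funext fun s => pwD v _ s
    rw [e, ← Function.iterate_mul, Nat.mul_comm]
    exact mulx v x n hc (n + 1)
  · rw [pwD, Function.iterate_succ_apply', hc]
    exact hne

theorem pw_succ_last (n : ℕ) (v : List α) : pw (n + 1) v = pw n v ++ v := by
  induction n with
  | zero => rw [pw_succ, pw_zero, List.append_nil, List.nil_append]
  | succ n ih => rw [pw_succ, ih, ← List.append_assoc, ← pw_succ, ih]

theorem take_pw {c : ℕ} (n : ℕ) (v : List α) (hv : c ≤ v.length) :
    (pw (n + 1) v).reverse.take c = v.reverse.take c := by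
  rw [pw_succ_last, List.reverse_append,
    List.take_append_of_le_length (by rw [List.length_reverse]; exact hv)]

section

variable {c : ℕ} (hD : Sink D)
  (H : ∀ v : List α, c ≤ v.length → Cyc D v →
    (F D (v.reverse.take c)).ncard ≤ (J D v).ncard)

include hD H

theorem perm_of [Finite Y] (v : List α) (hv : c ≤ v.length)
    (x : Option Y) (hx : x ≠ none) (n : ℕ) (hn : 0 < n)
    (hc : (fun s => v.foldl D s)^[n] x = x) (hne : v.foldl D x ≠ x) :
    J D v = F D (v.reverse.take c) ∧ (∀ s ∈ J D v, v.foldl D s ≠ none) ∧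
      Set.InjOn (fun s => v.foldl D s) (J D v) := by
  have hnone : ∀ i, (fun s => v.foldl D s)^[i] none = none := by
    intro i
    induction i with
    | zero => rfl
    | succ i ih => rw [Function.iterate_succ_apply', ih]; exact hD.foldl v
  have h4 := H v hv ⟨x, hx, n, hn, hc, hne⟩
  have h7 : J D v = F D (v.reverse.take c) :=
    Set.eq_of_subset_of_ncard_le (J_last v c) h4 (Set.toFinite _)
  have h5 : (J D v).ncard ≤ (J D (pw (n + 1) v)).ncard := by
    have h8 := H (pw (n + 1) v) (by
      rw [pw_len, Nat.succ_mul]; omega) (cyc_pw hx hn hc hne)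
    rw [take_pw n v hv, ← h7] at h8
    exact h8
  have h6 : J D (pw (n + 1) v) ⊆ ((fun s => v.foldl D s)^[n]) '' (J D v) := by
    have h8 := J_img hD v (pw n v)
    rw [← pw_succ] at h8
    have e : (fun s => (pw n v).foldl D s) = (fun s => v.foldl D s)^[n] :=
      funext fun s => pwD v _ s
    rw [e] at h8
    exact h8
  have h8 : (((fun s => v.foldl D s)^[n]) '' (J D v)).ncard = (J D v).ncard := by
    apply le_antisymm (Set.ncard_image_le (Set.toFinite _))
    have := Set.ncard_le_ncard h6 (Set.toFinite _)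
    omega
  have h9 := Set.injOn_of_ncard_image_eq h8 (Set.toFinite _)
  have hinj : Set.InjOn (fun s => v.foldl D s) (J D v) := by
    obtain ⟨m, rfl⟩ : ∃ m, n = m + 1 := ⟨n - 1, by omega⟩
    intro s hs t ht hst
    apply h9 hs ht
    rw [Function.iterate_succ_apply, Function.iterate_succ_apply]
    exact congrArg _ hst
  have h10 : J D (pw (n + 1) v) = ((fun s => v.foldl D s)^[n]) '' (J D v) :=
    Set.eq_of_subset_of_ncard_le h6 (by omega) (Set.toFinite _)
  refine ⟨h7, ?_, hinj⟩
  intro s hs h11
  have h12 : (fun s => v.foldl D s)^[n] s ∈ J D (pw (n + 1) v) := by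
    rw [h10]; exact ⟨s, hs, rfl⟩
  obtain ⟨m, rfl⟩ : ∃ m, n = m + 1 := ⟨n - 1, by omega⟩
  rw [Function.iterate_succ_apply, h11, hnone] at h12
  exact h12.1 rfl

/-- the frames along a periodic word are not larger -/
theorem conj_le [Finite Y] (u u' : List α) (hv : c ≤ (u ++ u').length) (hc : Cyc D (u ++ u')) :
    (F D ((u' ++ u).reverse.take c)).ncard ≤ (J D (u ++ u')).ncard := by
  obtain ⟨x, hx, n, hn, h1, h2⟩ := hc
  have h3 : ∀ i s, (fun s => (u' ++ u).foldl D s)^[i] (u.foldl D s) =
      u.foldl D ((fun s => (u ++ u').foldl D s)^[i] s) := by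
    intro i
    induction i with
    | zero => intro s; rfl
    | succ i ih =>
      intro s
      rw [Function.iterate_succ_apply, Function.iterate_succ_apply, ← ih]
      congr 1
      rw [List.foldl_append, List.foldl_append]
  have h4 : (fun s => (u' ++ u).foldl D s)^[n] (u.foldl D x) = u.foldl D x := by
    rw [h3, h1]
  have h5 : (u' ++ u).foldl D (u.foldl D x) ≠ u.foldl D x := by
    intro h6
    have h7 : (u ++ u').foldl D ((u ++ u').foldl D x) = (u ++ u').foldl D x := by
      have h8 := congrArg (fun s => u'.foldl D s) h6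
      simp only [List.foldl_append] at h8 ⊢
      exact h8
    have h9 : ∀ i, (fun s => (u ++ u').foldl D s)^[i + 1] x = (u ++ u').foldl D x := by
      intro i
      induction i with
      | zero => rfl
      | succ i ih => rw [Function.iterate_succ_apply', ih]; exact h7
    obtain ⟨m, rfl⟩ : ∃ m, n = m + 1 := ⟨n - 1, by omega⟩
    rw [h9] at h1
    exact h2 h1
  have hx' : u.foldl D x ≠ none := by
    intro h6
    rw [h6] at h5
    exact h5 (hD.foldl _)
  have hl : c ≤ (u' ++ u).length := by
    rw [List.length_append] at hv ⊢; omega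
  have h6 := H (pw (n + 1) (u' ++ u)) (by rw [pw_len, Nat.succ_mul]; omega)
    (cyc_pw hx' hn h4 h5)
  rw [take_pw n _ hl] at h6
  refine h6.trans ?_
  obtain ⟨m, rfl⟩ : ∃ m, n = m + 1 := ⟨n - 1, by omega⟩
  have h7 : pw (m + 1 + 1) (u' ++ u) = (u' ++ (u ++ u')) ++ (u ++ pw m (u' ++ u)) := by
    rw [pw_succ, pw_succ]; simp
  rw [h7]
  calc (J D ((u' ++ (u ++ u')) ++ (u ++ pw m (u' ++ u)))).ncard
      ≤ ((fun s => (u ++ pw m (u' ++ u)).foldl D s) '' (J D (u' ++ (u ++ u')))).ncard :=
        Set.ncard_le_ncard (J_img hD _ _) (Set.toFinite _)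
    _ ≤ (J D (u' ++ (u ++ u'))).ncard := Set.ncard_image_le (Set.toFinite _)
    _ ≤ (J D (u ++ u')).ncard := Set.ncard_le_ncard (J_app _ _) (Set.toFinite _)

end

theorem take_app_take (A B : List α) (N : ℕ) : (A ++ B.take N).take N = (A ++ B).take N := by
  rw [List.take_append, List.take_append, List.take_take, Nat.min_eq_left (Nat.sub_le _ _)]

theorem key_runk [Finite Y] {k c : ℕ} (hD : Sink D)
    (r : List α) (hrc : r.length = c) (hr : (F D r).ncard = k) (v : List α)
    (h3 : ∀ u u' : List α, v = u ++ u' → (F D ((u.reverse ++ r).take c)).ncard ≤ k)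
    (h4 : ∀ s ∈ F D r, v.foldl D s ∈ F D r)
    (h5 : Set.InjOn (fun s => v.foldl D s) (F D r)) (h0 : Conn D r r) (u : List α) :
    ∀ u' : List α, v = u ++ u' →
    ∃ L : List α, L = (u.reverse ++ r).take c ∧ L.length = c ∧
      (u.foldl (H434.cstepN (wwk D c r)) (s0 D hrc)).2.1.1 = L ∧
      (∃ f : F D r ≃ F D L, Ind D u f) ∧ (∃ f : F D L ≃ F D r, Ind D u' f) ∧
      ∀ hb : Conn D r L, ∀ z, u.foldl D (ta h0 (((u.foldl (H434.cstepN (wwk D c r))
        (s0 D hrc)).2.2 : Equiv.Perm (F D r)) z)) = ta hb z := by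
  induction u using List.reverseRecOn with
  | nil =>
    intro u' hu
    rw [List.nil_append] at hu
    subst hu
    refine ⟨r, ?_, hrc, rfl, ⟨Equiv.refl _, fun z => rfl⟩,
      exists_ind v h4 h5 le_rfl, fun hb z => rfl⟩
    rw [List.reverse_nil, List.nil_append, List.take_of_length_le hrc.le]
  | append_singleton u b ih =>
    intro u' hu
    obtain ⟨L, gL, g0, g2, ⟨f, hf⟩, ⟨f', hf'⟩, g3⟩ := ih (b :: u') (by rw [hu]; simp)
    set S := u.foldl (H434.cstepN (wwk D c r)) (s0 D hrc) with hS
    have hcard : (F D L).ncard = k := by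
      rw [← hr]
      exact (Nat.card_congr f).symm
    have hnn : ∀ z : F D L, D z b ≠ none := by
      intro z hz
      have h6 := hf' z
      rw [List.foldl_cons, hz, hD.foldl] at h6
      exact (f' z).2.1 h6.symm
    have hlen : ((b :: L).take c).length = c := by
      rw [List.length_take, List.length_cons, g0]; omega
    have hL' : (b :: L).take c = ((u ++ [b]).reverse ++ r).take c := by
      have h6 := take_app_take [b] (u.reverse ++ r) c
      rw [← gL] at h6
      rw [List.reverse_append]
      exact h6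
    have hsub : J D (L.reverse ++ [b]) ⊆ F D ((b :: L).take c) := by
      have h6 : L.reverse ++ [b] = (b :: L).reverse := by rw [List.reverse_cons]
      rw [h6]
      have h7 := J_last (D := D) (b :: L).reverse c
      rw [List.reverse_reverse] at h7
      exact h7
    obtain ⟨g, hg⟩ : ∃ g : F D L ≃ F D ((b :: L).take c), Ind D [b] g := by
      refine exists_ind [b] (fun z hz => hsub ⟨hnn ⟨z, hz⟩, ?_⟩) ?_ (by
        rw [hcard, hL']; exact h3 (u ++ [b]) u' hu)
      · obtain ⟨hz1, t, ht⟩ := hz
        refine ⟨t, ?_⟩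
        rw [List.foldl_append, ht]
      · intro x hx y hy hxy
        have h6 := hf' ⟨x, hx⟩
        have h7 := hf' ⟨y, hy⟩
        rw [List.foldl_cons] at h6 h7
        have h8 : D x b = D y b := hxy
        change u'.foldl D (D x b) = _ at h6
        change u'.foldl D (D y b) = _ at h7
        rw [h8, h7] at h6
        have h9 := f'.injective (Subtype.ext h6)
        exact (congrArg Subtype.val h9).symm
    have hback : Ind D u' (g.symm.trans f') := by
      intro z
      have h6 := hf' (g.symm z)
      rw [List.foldl_cons] at h6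
      have h7 := hg (g.symm z)
      rw [List.foldl_cons, List.foldl_nil, Equiv.apply_symm_apply] at h7
      rw [h7] at h6
      exact h6
    refine ⟨(b :: L).take c, hL', hlen, ?_, ⟨f.trans g, hf.trans hg⟩, ⟨_, hback⟩, ?_⟩
    · rw [List.foldl_append, List.foldl_cons, List.foldl_nil]
      change (b :: S.2.1.1).take c = _
      rw [g2]
    · intro hb z
      have hb' : Conn D r L := ⟨⟨_, f, hf⟩, ⟨_, f', hf'⟩⟩
      rw [List.foldl_append, List.foldl_append, List.foldl_cons, List.foldl_nil, List.foldl_cons,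
        List.foldl_nil]
      change D (u.foldl D (ta h0 (((S.2.2 * wwk D c r S.1 S.2.1.1.reverse b : Kg D r) :
        Equiv.Perm (F D r)) z))) b = ta hb z
      have e1 : wwk D c r S.1 S.2.1.1.reverse b = wk D r L ((b :: L).take c) b := by
        unfold wwk
        rw [List.reverse_reverse, g2]
      rw [e1]
      change D (u.foldl D (ta h0 ((S.2.2 : Equiv.Perm (F D r))
        ((wk D r L ((b :: L).take c) b : Equiv.Perm (F D r)) z)))) b = ta hb z
      rw [g3 hb']
      exact wk_spec hb' hb ⟨g, hg⟩ z

/-- long words -/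
theorem k_long [Finite Y] {c : ℕ} (hD : Sink D)
    (H : ∀ v : List α, c ≤ v.length → Cyc D v → (F D (v.reverse.take c)).ncard ≤ (J D v).ncard)
    (v : List α) (hv : c ≤ v.length)
    (x : Option Y) (hx : x ≠ none) (n : ℕ) (hn : 0 < n)
    (hc : (fun s => v.foldl D s)^[n] x = x) (hne : v.foldl D x ≠ x)
    (r : List α) (hrdef : v.reverse.take c = r) (hrc : r.length = c)
    (hid : v.foldl (H434.cstepN (wwk D c r)) (v.foldl (H434.cstepN (wwk D c r)) (s0 D hrc)) =
        v.foldl (H434.cstepN (wwk D c r)) (s0 D hrc)) : False := by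
  obtain ⟨h9, h6, h7⟩ := perm_of hD H v hv x hx n hn hc hne
  rw [hrdef] at h9
  have h33 : ∀ u u' : List α, v = u ++ u' →
      (F D ((u.reverse ++ r).take c)).ncard ≤ (F D r).ncard := by
    intro u u' huv
    have h10 := conj_le hD H u u' (by rw [← huv]; exact hv)
      (by rw [← huv]; exact ⟨x, hx, n, hn, hc, hne⟩)
    rw [← huv, h9] at h10
    have h11 : (u.reverse ++ r).take c = (u' ++ u).reverse.take c := by
      rw [← hrdef, take_app_take, huv, List.reverse_append, List.reverse_append,
        ← List.append_assoc, List.take_append_of_le_length]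
      rw [huv] at hv
      rw [List.length_append] at hv ⊢
      rw [List.length_reverse, List.length_reverse]
      omega
    rw [h11]
    exact h10
  rw [h9] at h6 h7
  have h10 : ∀ s ∈ F D r, v.foldl D s ∈ F D r := by
    intro s hs
    rw [← h9]
    exact ⟨h6 s hs, s, rfl⟩
  have h0 : Conn D r r := ⟨⟨[], Equiv.refl _, fun z => rfl⟩, ⟨[], Equiv.refl _, fun z => rfl⟩⟩
  obtain ⟨b, -, g1, g2, -, -, g4⟩ := key_runk hD r hrc rfl v h33 h10 h7 h0 v [] (by simp)
  have hba : b = r := by
    have h11 := (H434.cstepN_run (c := c) (wwk D c r) (s0 D hrc) v).2.1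
    rw [g2, List.take_append_of_le_length (by rw [List.length_reverse]; exact hv), hrdef] at h11
    exact h11
  subst hba
  -- the value of `v` after `b` is trivial
  have hP : (v.foldl (H434.cstepN (wwk D c b)) (s0 D hrc)).2.2 = 1 := by
    have r1 := hid
    have r2 := (H434.cstepN_run (c := c) (wwk D c b) (s0 D hrc) v).2.2
    set T := v.foldl (H434.cstepN (wwk D c b)) (s0 D hrc) with hT
    have r3 := (H434.cstepN_run (c := c) (wwk D c b) T v).2.2
    rw [r1] at r3
    have r5 : T.1 = 0 := Subsingleton.elim _ _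
    rw [g2, r5] at r3
    change T.2.2 = 1 * H157.hp (fun X b' => wwk D c b (0 + (X.length : ZMod 1))
      ((X ++ b).take c).reverse b') v.reverse at r2
    rw [one_mul] at r2
    rw [← r2] at r3
    exact (mul_eq_left.mp r3.symm)
  have hxJ : x ∈ F D b := by
    rw [← h9]
    obtain ⟨m, rfl⟩ : ∃ m, n = m + 1 := ⟨n - 1, by omega⟩
    refine ⟨hx, (fun s => v.foldl D s)^[m] x, ?_⟩
    rw [Function.iterate_succ_apply'] at hc
    exact hc
  have h11 := g4 h0 ((ta h0).symm ⟨x, hxJ⟩)
  rw [hP] at h11
  change v.foldl D (ta h0 ((ta h0).symm ⟨x, hxJ⟩)) = ta h0 ((ta h0).symm ⟨x, hxJ⟩) at h11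
  rw [Equiv.apply_symm_apply] at h11
  exact hne h11

/-- **Automata in which periodic words have as many values as their last `c` letters.** -/
theorem k_sh [Finite α] [Finite Y] {c : ℕ} (hD : Sink D)
    (H : ∀ v : List α, c ≤ v.length → Cyc D v → (F D (v.reverse.take c)).ncard ≤ (J D v).ncard)
    (hG : ∀ v : List α, c ≤ v.length → Cyc D v → H434.CtxK 1 (Kg D (v.reverse.take c)))
    (p q : Option Y) : SH 1 {w : List α | w.foldl D p = q} := by
  classical
  let θ : Type := {r : List α // r.length = c ∧ H434.CtxK 1 (Kg D r)}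
  haveI : Finite {r : List α // r.length = c} := (List.finite_length_eq α c).to_subtype
  haveI : Finite θ := by
    refine Finite.of_injective (β := {r : List α // r.length = c}) (fun r => ⟨r.1, r.2.1⟩) ?_
    intro x y hxy
    exact Subtype.ext (congrArg (fun z : {r : List α // r.length = c} => z.1) hxy)
  have hfinK : ∀ r, Finite (Kg D r) := by
    intro r
    infer_instance
  have hfin : Finite {Z : List α // Z.length ≤ c} := (List.finite_length_le α c).to_subtype
  obtain ⟨E, s2, hE⟩ := mapLe_sigma (fun r : θ => H434.cstepN (c := c) (wwk D c r.1))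
    (fun r x y => H434.cstepN_sh H434.LocK.one r.2.2 (wwk D c r.1) x y)
  refine H550.sh_of_mapLe D (H162.Str.straubing _ s2 (H550.tr D) fun v hv hid => ?_) p q
  have hid' : ∀ (r : List α) (hrc : r.length = c) (hr : H434.CtxK 1 (Kg D r))
      (s : H434.CSN α (Kg D r) 1 c),
      v.foldl (H434.cstepN (wwk D c r)) (v.foldl (H434.cstepN (wwk D c r)) s) =
        v.foldl (H434.cstepN (wwk D c r)) s := by
    intro r hrc hr s
    have h4 := congrArg (fun m : Tr (Σ r : θ, H434.CSN α (Kg D r.1) 1 c) =>
      m.f ⟨(⟨r, hrc, hr⟩ : θ), s⟩) hid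
    simp only [Tr.mul_f, H550.tr_prod] at h4
    rw [hE, hE] at h4
    simpa using h4
  have hpwid : ∀ (r : List α) (hrc : r.length = c) (hr : H434.CtxK 1 (Kg D r)) (m : ℕ)
      (s : H434.CSN α (Kg D r) 1 c),
      (pw (m + 1) v).foldl (H434.cstepN (wwk D c r)) s = v.foldl (H434.cstepN (wwk D c r)) s := by
    intro r hrc hr m
    induction m with
    | zero => intro s; rw [pw_succ, pw_zero, List.append_nil]
    | succ m ih => intro s; rw [pw_succ, List.foldl_append, ih, hid' r hrc hr]
  obtain ⟨i, hi⟩ := aper_of (fun s => v.foldl D s) (by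
    intro x n hn hc
    by_contra hne
    have hx : x ≠ none := by
      rintro rfl
      exact hne (hD.foldl v)
    have e0 : (pw (n * c + 1) v).foldl D x = v.foldl D x := by
      rw [pwD, Function.iterate_succ_apply', mulx v x n hc]
    have hl : c ≤ (pw (n * c + 1) v).length := by
      rw [pw_len]
      have h1 : 0 < v.length := List.length_pos_of_ne_nil hv
      calc c = 1 * c * 1 := by ring
        _ ≤ (n * c + 1) * v.length := by
          apply Nat.mul_le_mul _ h1
          have : 1 * c ≤ n * c := Nat.mul_le_mul_right c hn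
          omega
    have e2 : (fun s => (pw (n * c + 1) v).foldl D s)^[n] x = x := by
      have e : (fun s => (pw (n * c + 1) v).foldl D s) =
          (fun s => v.foldl D s)^[n * c + 1] := funext fun s => pwD v _ s
      rw [e, ← Function.iterate_mul, Nat.mul_comm]
      exact mulx v x n hc (n * c + 1)
    have e3 : (pw (n * c + 1) v).foldl D x ≠ x := by rw [e0]; exact hne
    have hrc : ((pw (n * c + 1) v).reverse.take c).length = c := by
      rw [List.length_take, List.length_reverse, Nat.min_eq_left hl]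
    have hr := hG _ hl ⟨x, hx, n, hn, e2, e3⟩
    exact k_long hD H _ hl x hx n hn e2 e3 _ rfl hrc (by
      rw [hpwid _ hrc hr, hpwid _ hrc hr, hid' _ hrc hr]))
  refine ⟨i, ?_⟩
  apply Tr.ext'
  intro s
  have hf : ((v.map (H550.tr D)).prod).f = fun s => v.foldl D s :=
    funext fun s => H550.tr_prod D v s
  rw [Tr.pow_f, Tr.pow_f, hf]
  exact hi s

end Vale.Agent.P329.H954.Del.Var
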